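import Vale.Agent.P275RG.Defs
import Vale.Agent.P281Z.Rs.All

/-!
# P275, good compactifications: existence, extension of algebraic maps
-/

open scoped Manifold ContDiff Topology
open Set Filter Function Topology
open Vale.Agent.P272.K (Cm)
open Vale.Agent.P277Z (Hol)
open Vale.Agent.P277Z.Slc (Snc LEq)
open Vale.Agent.P281Z

set_option linter.unusedSectionVars false

noncomputable section

namespace Vale.Agent.P275RG

variable {n m k : ℕ} {U V W : Type} [TopologicalSpace U] [ChartedSpace (Cm n) U]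
  [IsManifold 𝓘(ℂ, Cm n) ω U] [TopologicalSpace V] [ChartedSpace (Cm m) V]
  [IsManifold 𝓘(ℂ, Cm m) ω V] [TopologicalSpace W] [ChartedSpace (Cm k) W]
  [IsManifold 𝓘(ℂ, Cm k) ω W]

theorem emb_open {X : Type} [TopologicalSpace X] [ChartedSpace (Cm n) X]
    [IsManifold 𝓘(ℂ, Cm n) ω X] {i : U → X} {S : Set X} (h : Emb n n i S) : IsOpenEmbedding i :=
  .of_continuous_injective_isOpenMap h.hol.cont h.inj
    (isOpenMap_iff_nhds_le.2 fun x => ((imm_iff_sbm.1 (h.imm x)).map_nhds (h.hol.at x)).ge)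

theorem emb_subM {i : U → V} {S : Set V} (h : Emb n m i S) (he : IsInducing i) : SubM m n S :=
  fun y hy => by
  obtain ⟨x, rfl⟩ : y ∈ range i := h.rng ▸ hy
  obtain ⟨c, g, h1, h2, h3, h4⟩ := (h.imm x).img (h.hol.at x)
  refine ⟨c, g, h1, h2, ?_⟩
  rw [he.nhds_eq_comap, eventually_comap] at h3
  filter_upwards [h3, h4 univ univ_mem] with z k1 k2
  refine ⟨fun hz => ?_, fun hz => ?_⟩
  · obtain ⟨x', rfl⟩ : z ∈ range i := h.rng ▸ hz
    exact k1 x' rfl
  · obtain ⟨x', -, rfl⟩ := k2 hz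
    exact h.rng ▸ mem_range_self x'

theorem emb_lift {i : U → V} (h1 : HolM n m i) (h2 : ∀ x, Imm n m i x) (he : IsInducing i)
    {g : W → U} {z : W} (hg : HolA k m (fun z => i (g z)) z) : HolA k n g z :=
  (h2 _).lift (h1.at _) (he.continuousAt_iff.2 hg.cont) hg

theorem Pr.hy (P : Pr n) (l : Fin P.r) : Nt.Hy n (P.G l) := fun x =>
  (P.snc x).elim fun ζ h => ⟨ζ l, h.1 l⟩

theorem Pr.an (P : Pr n) (l : Fin P.r) : An n (P.G l) := (snc_thin P.snc l).an

theorem Pr.bd (P : Pr n) : An n (off P.G)ᶜ := (snc_thin_off P.snc).an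

theorem not_off {X κ : Type} {G : κ → Set X} {y : X} : y ∉ off G ↔ ∃ l, y ∈ G l := by
  simp [off]

namespace Cp

variable (c : Cp n U)

theorem opn : IsOpenEmbedding c.j := emb_open c.emb

theorem hol : HolM n n c.j := c.emb.hol

theorem inj : Injective c.j := c.emb.inj

theorem mem (x : U) : c.j x ∈ off c.G := c.emb.rng ▸ mem_range_self x

theorem ex {y : c.Y.X} (hy : y ∈ off c.G) : ∃ x, c.j x = y := by rwa [← c.emb.rng] at hy

theorem dense : DenseRange c.j := by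
  rw [DenseRange, c.emb.rng]
  exact snc_dense_off c.snc

theorem lift {g : W → U} {z : W} (hg : HolA k n (fun z => c.j (g z)) z) : HolA k n g z :=
  emb_lift c.hol c.emb.imm c.opn.isInducing hg

include c in
theorem t2 : T2Space U := c.opn.isEmbedding.t2Space

include c in
theorem sc : SecondCountableTopology U := c.opn.isEmbedding.secondCountableTopology

theorem neBot (y : c.Y.X) : (comap c.j (𝓝 y)).NeBot :=
  comap_neBot fun _ ht => c.dense.mem_nhds ht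

/-- holomorphic functions on `U` are holomorphic on the open part -/
theorem hol_of {a : c.Y.X → ℂ} {x : U} (h : Hol n (fun x => a (c.j x)) x) : Hol n a (c.j x) :=
  (imm_iff_sbm.1 (c.emb.imm x)).hol_desc (c.hol.at x) h

end Cp

/-- a manifold which is embedded onto a difference of analytic sets has a good compactification -/
theorem sub (M : Mf m) (hM : M.Kah) {A B : Set M.X} (hA : An m A) (hB : An m B) {i : U → M.X}
    (hi : Emb n m i (A \ B)) (he : IsInducing i) :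
    ∃ (c : Cp n U) (π : c.Y.X → M.X), HolM n m π ∧ (∀ x, π (c.j x) = i x) ∧
      (∀ y, π y ∉ B ↔ y ∈ off c.G) ∧ (M.Prj → c.Y.Prj) := by
  obtain ⟨I, hI⟩ := idl m M B hB
  obtain ⟨R⟩ := Rs.res m n M A I hA (hI ▸ emb_subM hi he)
  have hO := R.ovr
  have hb := R.bad
  rw [hI] at hO hb
  have hm : ∀ x, i x ∈ A \ B := fun x => hi.rng ▸ mem_range_self x
  choose j hj using fun x => hO.ex (hm x).1 (hm x).2
  have h0 : ∀ y, R.π y ∉ B ↔ y ∈ off R.G := fun y => by rw [hb, ← not_off, not_not]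
  have h1 : HolM n n j := fun x =>
    hO.lift_at (by rw [hj]; exact (hm x).2) ((hi.hol.at x).cng (.of_forall fun z => (hj z).symm))
  refine ⟨⟨⟨R.V, R.kah hM, R.r, R.G, R.snc, R.conn⟩, j, h1,
    fun x x' e => hi.inj (by rw [← hj, ← hj, e]), fun x => .of_comp (hO.hol.at _) (h1.at x)
      ((hi.imm x).cng (.of_forall fun z => (hj z).symm)), ?_⟩, R.π, hO.hol, hj, h0, R.prj⟩
  ext y
  refine ⟨?_, fun hy => ?_⟩
  · rintro ⟨x, rfl⟩
    exact (h0 _).1 (by rw [hj]; exact (hm x).2)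
  · obtain ⟨x, hx⟩ : R.π y ∈ range i := hi.rng ▸ ⟨hO.maps y, (h0 y).2 hy⟩
    exact ⟨x, hO.inj ((h0 y).2 hy) ((hj x).trans hx)⟩

variable {c c₁ : Cp n U} {c' : Cp m V} {c'' : Cp k W} {f : U → V} {g : V → W}
  {F : c.Y.X → c'.Y.X}

namespace Ext

theorem id (c : Cp n U) : Ext c c (fun x => x) fun y => y := ⟨holM_id, fun _ => rfl⟩

theorem comp {G : c'.Y.X → c''.Y.X} (h' : Ext c' c'' g G) (h : Ext c c' f F) :
    Ext c c'' (fun x => g (f x)) fun y => G (F y) :=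
  ⟨h'.hol.comp h.hol, fun x => by rw [h.eq, h'.eq]⟩

theorem holf (h : Ext c c' f F) : HolM n m f := fun x =>
  c'.lift (((h.hol.comp c.hol).at x).cng (.of_forall h.eq))

theorem uniq {F' : c.Y.X → c'.Y.X} (h : Ext c c' f F) (h' : Ext c c' f F') : F = F' :=
  c.dense.equalizer h.hol.cont h'.hol.cont (funext fun x => (h.eq x).trans (h'.eq x).symm)

theorem maps (h : Ext c c' f F) {y : c.Y.X} (hy : y ∈ off c.G) : F y ∈ off c'.G := by
  obtain ⟨x, rfl⟩ := c.ex hy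
  exact h.eq x ▸ c'.mem _

theorem tend (h : Ext c c' f F) {y : c.Y.X} {v : V} (e : F y = c'.j v) :
    Tendsto f (comap c.j (𝓝 y)) (𝓝 v) := by
  rw [c'.opn.isInducing.tendsto_nhds_iff, ← e]
  exact ((h.hol.cont.tendsto y).comp tendsto_comap).congr h.eq

theorem proper (h : Ext c c' f F) (hf : IsProperMap f) {y : c.Y.X} (hy : F y ∈ off c'.G) :
    y ∈ off c.G := by
  obtain ⟨v, hv⟩ := c'.ex hy
  have := c.neBot y
  obtain ⟨x, -, hx⟩ := (isProperMap_iff_ultrafilter.1 hf).2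
    ((h.tend hv.symm).mono_left (Ultrafilter.of_le (comap c.j (𝓝 y))))
  have h1 : Tendsto c.j (Ultrafilter.of (comap c.j (𝓝 y))) (𝓝 y) :=
    tendsto_comap.mono_left (Ultrafilter.of_le _)
  exact tendsto_nhds_unique ((c.hol.cont.tendsto x).mono_left hx) h1 ▸ c.mem x

theorem isProper (h : Ext c c' f F) (hf : ∀ y, F y ∈ off c'.G → y ∈ off c.G) : IsProperMap f := by
  refine isProperMap_iff_ultrafilter.2 ⟨h.holf.cont, fun 𝒰 v hv => ?_⟩
  obtain ⟨y, hy⟩ := isCompact_univ.ultrafilter_le_nhds' (𝒰.map c.j) univ_mem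
  have h1 : F y = c'.j v := tendsto_nhds_unique
    (((h.hol.cont.tendsto y).comp hy.2).congr h.eq) ((c'.hol.cont.tendsto v).comp hv)
  obtain ⟨x, rfl⟩ := c.ex (hf y (h1 ▸ c'.mem v))
  exact ⟨x, c'.inj ((h.eq x).symm.trans h1), c.opn.isInducing.tendsto_nhds_iff.2 hy.2⟩

/-- the preimage of a component is a union of components -/
theorem comps (h : Ext c c' f F) {y : c.Y.X} {l' : Fin c'.r} (hy : F y ∈ c'.G l') :
    ∃ l, y ∈ c.G l ∧ ∀ z ∈ c.G l, F z ∈ c'.G l' := by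
  obtain ⟨ζ, h1, -⟩ := c.snc y
  obtain ⟨ξ, h2⟩ := c'.hy l' (F y)
  have h3 := h.hol.cont.continuousAt.eventually h2.1
  obtain ⟨a, u, -, u2, u3⟩ := Nt.Hp.mon c.snc h1 (h.hol.hol h2.hol)
    (h3.mono fun z hz k e => h.maps k l' (hz.1 e))
  have h4 := u3.self_of_nhds.symm.trans (h2.mem.2 hy)
  obtain ⟨l, -, hl⟩ := Finset.prod_eq_zero_iff.1 ((mul_eq_zero.1 h4).resolve_left u2)
  have h5 := (h1 l).mem.1 (eq_zero_of_pow_eq_zero hl)
  refine ⟨l, h5, Nt.Hp.idh (c.conn l).isPreconnected (c.hy l) ((c'.an l').pre h.hol) h5 ?_⟩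
  filter_upwards [h3, u3, (h1 l).1] with z a1 a2 a3 a4
  refine a1.1 (a2.trans (mul_eq_zero_of_right _ (Finset.prod_eq_zero (Finset.mem_univ l) ?_)))
  rw [a3.2 a4]
  exact zero_pow fun e => by simp [e] at hl

end Ext

/-- a component which lies in a finite union of analytic sets lies in one of them -/
theorem Pr.into (P : Pr n) (l : Fin P.r) {κ : Type} [Finite κ] {T : κ → Set P.Y.X}
    (hT : ∀ a, An n (T a)) (h : ∀ y ∈ P.G l, ∃ a, y ∈ T a) : ∃ a, P.G l ⊆ T a := by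
  have := Fintype.ofFinite κ
  obtain ⟨x, hx⟩ := (P.conn l).nonempty
  obtain ⟨y, h1, a, h2⟩ := (Nt.Hp.cov (fun a => (hT a).closed) hx (.of_forall h)).exists
  exact ⟨a, Nt.Hp.idh (P.conn l).isPreconnected (P.hy l) (hT a) h1 h2⟩

/-- for a proper map every component is mapped into a component -/
theorem Ext.into (h : Ext c c' f F) (hf : IsProperMap f) (l : Fin c.r) :
    ∃ l', ∀ y ∈ c.G l, F y ∈ c'.G l' :=
  c.into l (fun l' => (c'.an l').pre h.hol) fun _ hy =>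
    not_off.1 fun e => h.proper hf e l hy

theorem mem_gr (hf : Continuous f) {x : U} {y : c'.Y.X} :
    c.Y.pair c'.Y (c.j x) y ∈ closure (gr c c' f) ↔ y = c'.j (f x) := by
  refine ⟨fun h => ?_, fun h => subset_closure ⟨x, by rw [h]⟩⟩
  obtain ⟨u, h1, h2⟩ := mem_closure_iff_ultrafilter.1 h
  let v : Ultrafilter U := u.comap (m := fun x => c.Y.pair c'.Y (c.j x) (c'.j (f x)))
    (fun _ _ e => c.inj (pair_inj.1 e).1) h1
  have h3 : Tendsto (fun x => c.Y.pair c'.Y (c.j x) (c'.j (f x))) v (𝓝 _) :=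
    tendsto_comap.mono_right h2
  have h4 : Tendsto (fun x => x) v (𝓝 x) :=
    c.opn.isInducing.tendsto_nhds_iff.2 ((cont_p1.tendsto _).comp h3)
  exact tendsto_nhds_unique ((cont_p2.tendsto _).comp h3)
    (((c'.hol.cont.comp hf).tendsto x).comp h4)

theorem mem_gr' (hf : IsInducing f) {x : U} {y : c.Y.X} :
    c.Y.pair c'.Y y (c'.j (f x)) ∈ closure (gr c c' f) ↔ y = c.j x := by
  refine ⟨fun h => ?_, fun h => subset_closure ⟨x, by rw [h]⟩⟩
  obtain ⟨u, h1, h2⟩ := mem_closure_iff_ultrafilter.1 h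
  let v : Ultrafilter U := u.comap (m := fun x => c.Y.pair c'.Y (c.j x) (c'.j (f x)))
    (fun _ _ e => c.inj (pair_inj.1 e).1) h1
  have h3 : Tendsto (fun x => c.Y.pair c'.Y (c.j x) (c'.j (f x))) v (𝓝 _) :=
    tendsto_comap.mono_right h2
  have h4 : Tendsto (fun x => x) v (𝓝 x) :=
    (c'.opn.isInducing.comp hf).tendsto_nhds_iff.2 ((cont_p2.tendsto _).comp h3)
  exact tendsto_nhds_unique ((cont_p1.tendsto _).comp h3) ((c.hol.cont.tendsto x).comp h4)

theorem alg_of_an (hf : HolM n m f) {A : Set (c.Y.prod c'.Y).X} (hA : An (n + m) A)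
    (h : ∀ x y, c.Y.pair c'.Y (c.j x) y ∈ A ↔ y = c'.j (f x)) : Alg c c' f := by
  refine ⟨hf, ?_⟩
  have h1 : gr c c' f = A \ c.Y.p1 c'.Y ⁻¹' (off c.G)ᶜ := by
    ext z
    refine ⟨?_, fun hz => ?_⟩
    · rintro ⟨x, rfl⟩
      exact ⟨(h x _).2 rfl, fun e => e (c.mem x)⟩
    · obtain ⟨x, hx⟩ := c.ex (not_not.1 hz.2)
      refine ⟨x, prod_ext hx ((h x _).1 ?_).symm⟩
      rw [hx]
      exact hz.1
  rw [h1]
  exact Rs.clo _ _ _ _ hA (c.bd.pre hol_p1)

theorem Ext.alg (h : Ext c c' f F) : Alg c c' f :=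
  alg_of_an h.holf (emb_graph h.hol).an fun x y => by
    simp only [mem_ofPred_eq, p1_pair, p2_pair, h.eq, eq_comm]

theorem Alg.id (c : Cp n U) : Alg c c fun x => x := (Ext.id c).alg

theorem Alg.const (c : Cp n U) (c' : Cp m V) (v : V) : Alg c c' fun _ => v :=
  (⟨holM_const (c'.j v), fun _ => rfl⟩ : Ext c c' (fun _ => v) fun _ => c'.j v).alg

theorem Alg.cont (h : Alg c c' f) : Continuous f := h.hol.cont

/-- algebraic maps extend to a modification -/
theorem Alg.ext (h : Alg c c' f) : ∃ (c₁ : Cp n U) (p : c₁.Y.X → c.Y.X) (F : c₁.Y.X → c'.Y.X),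
    Ext c₁ c (fun x => x) p ∧ Ext c₁ c' f F := by
  have h1 : HolM n m fun x => c'.j (f x) := c'.hol.comp h.hol
  obtain ⟨c₁, π, a1, a2, -⟩ := sub (c.Y.prod c'.Y) (c.kah.prod c'.kah) h.an (c.bd.pre hol_p1)
    (i := fun x => c.Y.pair c'.Y (c.j x) (c'.j (f x)))
    ⟨c.hol.pair h1, fun _ _ e => c.inj (pair_inj.1 e).1,
      fun x => (c.emb.imm x).pair_left (c.hol.at x) (h1.at x), by
        ext z
        refine ⟨?_, fun hz => ?_⟩
        · rintro ⟨x, rfl⟩
          exact ⟨subset_closure ⟨x, rfl⟩, fun e => e (c.mem x)⟩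
        · obtain ⟨x, hx⟩ := c.ex (not_not.1 hz.2)
          refine ⟨x, prod_ext hx ((mem_gr (c := c) h.cont).1 ?_).symm⟩
          rw [hx]
          exact hz.1⟩
    (.of_comp (c.hol.pair h1).cont cont_p1 c.opn.isInducing)
  exact ⟨c₁, _, _, ⟨hol_p1.comp a1, fun x => by rw [a2]; rfl⟩,
    ⟨hol_p2.comp a1, fun x => by rw [a2]; rfl⟩⟩

theorem an_comp {A : Set (c.Y.prod c'.Y).X} {B : Set (c'.Y.prod c''.Y).X} (hA : An (n + m) A)
    (hB : An (m + k) B) : ∃ C : Set (c.Y.prod c''.Y).X, An (n + k) C ∧ ∀ x z,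
      c.Y.pair c''.Y x z ∈ C ↔ ∃ y, c.Y.pair c'.Y x y ∈ A ∧ c'.Y.pair c''.Y y z ∈ B := by
  refine ⟨_, rem _ _ ((c.Y.prod c'.Y).prod c''.Y) _ _ _ ((hol_p1.comp hol_p1).pair hol_p2)
    ((hA.pre hol_p1).inter (hB.pre ((hol_p2.comp hol_p1).pair hol_p2))), fun x z => ⟨?_, ?_⟩⟩
  · rintro ⟨w, ⟨h1, h2⟩, e⟩
    obtain ⟨rfl, rfl⟩ := pair_inj.1 e
    exact ⟨_, h1, h2⟩
  · rintro ⟨y, h1, h2⟩
    exact ⟨(c.Y.prod c'.Y).pair c''.Y (c.Y.pair c'.Y x y) z, ⟨h1, h2⟩, rfl⟩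

theorem Alg.comp (h' : Alg c' c'' g) (h : Alg c c' f) : Alg c c'' fun x => g (f x) := by
  obtain ⟨C, h1, h2⟩ := an_comp h.an h'.an
  refine alg_of_an (h'.hol.comp h.hol) h1 fun x z => ?_
  simp only [h2, mem_gr h.cont, exists_eq_left, mem_gr h'.cont]

/-- a map into an algebraically embedded manifold is algebraic if the composed map is -/
theorem Alg.lift {i : W → V} {e : U → W} (hi : Alg c'' c' i) (h1 : IsInducing i)
    (h2 : ∀ x, Imm k m i x) (h : Alg c c' fun x => i (e x)) : Alg c c'' e := by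
  obtain ⟨C, a1, a2⟩ := an_comp (c'' := c'') h.an (hi.an.pre (hol_p2.pair hol_p1))
  refine alg_of_an (fun x => emb_lift hi.hol h2 h1 (h.hol.at x)) a1 fun x z => ?_
  simp only [a2, mem_gr h.cont, exists_eq_left, mem_preimage, p1_pair, p2_pair, mem_gr' h1]

theorem Alg.inv {U' : Type} [TopologicalSpace U'] [ChartedSpace (Cm n) U']
    [IsManifold 𝓘(ℂ, Cm n) ω U'] {d : Cp n U'} {i : U → U'} {e : U' → U} (hi : Alg c d i)
    (he : HolM n n e) (h1 : ∀ x, e (i x) = x) (h2 : ∀ x, i (e x) = x) : Alg d c e :=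
  hi.lift (.of_comp hi.cont he.cont (by rw [show e ∘ i = _root_.id from funext h1]; exact .id))
    (fun x => .of_comp (he.at _) (hi.hol.at x) ((imm_id x).cng (.of_forall fun z => (h1 z).symm)))
    (by simpa only [h2] using Alg.id d)

theorem Alg.symm (h : Alg c c₁ fun x => x) : Alg c₁ c fun x => x :=
  h.inv holM_id (fun _ => rfl) fun _ => rfl

/-- finitely many algebraic maps extend to one modification -/
theorem ext_fin {ι : Type} [Finite ι] {d : ι → ℕ} {Z : ι → Type} [∀ a, TopologicalSpace (Z a)]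
    [∀ a, ChartedSpace (Cm (d a)) (Z a)] [∀ a, IsManifold 𝓘(ℂ, Cm (d a)) ω (Z a)]
    {e : ∀ a, Cp (d a) (Z a)} {f : ∀ a, U → Z a} (h : ∀ a, Alg c (e a) (f a)) :
    ∃ (c₁ : Cp n U) (p : c₁.Y.X → c.Y.X) (F : ∀ a, c₁.Y.X → (e a).Y.X),
      Ext c₁ c (fun x => x) p ∧ ∀ a, Ext c₁ (e a) (f a) (F a) := by
  classical
  have key : ∀ s : Finset ι, ∃ (c₁ : Cp n U) (p : c₁.Y.X → c.Y.X), Ext c₁ c (fun x => x) p ∧
      ∀ a ∈ s, ∃ F, Ext c₁ (e a) (f a) F := fun s => by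
    induction s using Finset.induction_on with
    | empty => exact ⟨c, _, .id c, by simp⟩
    | insert a s _ ih =>
      obtain ⟨c₁, p, h1, h2⟩ := ih
      obtain ⟨c₂, q, F, h3, h4⟩ := ((h a).comp h1.alg).ext
      refine ⟨c₂, _, h1.comp h3, Finset.forall_mem_insert _ _ _ |>.2 ⟨⟨F, h4⟩, fun b hb => ?_⟩⟩
      obtain ⟨G, h5⟩ := h2 b hb
      exact ⟨_, h5.comp h3⟩
  have := Fintype.ofFinite ι
  obtain ⟨c₁, p, h1, h2⟩ := key Finset.univ
  choose F hF using fun a => h2 a (Finset.mem_univ a)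
  exact ⟨c₁, p, F, h1, hF⟩

/-- a map is algebraic if its components for an embedding family of algebraic maps are -/
theorem Alg.lift_fin {ι : Type} [Finite ι] {d : ι → ℕ} {Z : ι → Type}
    [∀ a, TopologicalSpace (Z a)] [∀ a, ChartedSpace (Cm (d a)) (Z a)]
    [∀ a, IsManifold 𝓘(ℂ, Cm (d a)) ω (Z a)] {e : ∀ a, Cp (d a) (Z a)} {i : ∀ a, V → Z a}
    (hi : ∀ a, Alg c' (e a) (i a)) (h1 : IsInducing fun v a => i a v) (hf : HolM n m f)
    (h : ∀ a, Alg c (e a) fun x => i a (f x)) : Alg c c' f := by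
  obtain ⟨c₂, p, I, a1, a2⟩ := ext_fin hi
  obtain ⟨c₁, q, F, b1, b2⟩ := ext_fin h
  refine (a1.alg.comp (c' := c₂) ?_).comp b1.alg.symm
  refine alg_of_an hf (.iInter fun a => fp_an (b2 a).hol (a2 a).hol) fun x y => ?_
  simp only [mem_iInter, fp, mem_ofPred_eq, p1_pair, p2_pair, (b2 _).eq]
  refine ⟨fun k => ?_, fun k a => by rw [k, (a2 a).eq]⟩
  have := c₂.neBot y
  have h2 : Tendsto (fun v => v) (comap c₂.j (𝓝 y)) (𝓝 (f x)) :=
    h1.tendsto_nhds_iff.2 (tendsto_pi_nhds.2 fun a => (a2 a).tend (k a).symm)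
  exact tendsto_nhds_unique (f := c₂.j) tendsto_comap ((c₂.hol.cont.tendsto _).comp h2)

end Vale.Agent.P275RG
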