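import Vale.Agent.P275RG.Reg

/-!
# P275, good compactifications: connected components, products
-/

open scoped Manifold ContDiff Topology
open Set Filter Function Topology
open Vale.Agent.P272.K (Cm Chart At)
open Vale.Agent.P272.K.Prod (prodCS isManifold_prod at_pc fstP sndP fstP_glue sndP_glue
  contDiff_fstP contDiff_sndP contDiff_glue)
open Vale.Agent.P277Z (Hol hol_const at_chart trans_an)
open Vale.Agent.P277Z.Slc (Snc LEq ind_iff_surj)
open Vale.Agent.P281Z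

set_option linter.unusedSectionVars false

noncomputable section

namespace Vale.Agent.P275RG

variable {n m k : ℕ} {U V W : Type} [TopologicalSpace U] [ChartedSpace (Cm n) U]
  [IsManifold 𝓘(ℂ, Cm n) ω U] [TopologicalSpace V] [ChartedSpace (Cm m) V]
  [IsManifold 𝓘(ℂ, Cm m) ω V] [TopologicalSpace W] [ChartedSpace (Cm k) W]
  [IsManifold 𝓘(ℂ, Cm k) ω W]

theorem ex_cmp {Y : Mf n} {κ : Type} [Fintype κ] {G : κ → Set Y.X} (hG : Snc n G) :
    ∃ (r : ℕ) (G' : Fin r → Set Y.X), Snc n G' ∧ (∀ l, IsConnected (G' l)) ∧ off G' = off G ∧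
      ∃ p : Fin r → κ, (∀ l, G' l ⊆ G (p l)) ∧ (∀ l, ∀ y ∈ G l, ∃ l', p l' = l ∧ y ∈ G' l') ∧
        ∀ l, ∀ y ∈ G' l, ∀ᶠ z in 𝓝 y, z ∈ G (p l) → z ∈ G' l :=
  let ⟨r, p, G', h1, h2, h3, h4, h5⟩ := Rs.Ou.cmps hG
  ⟨r, G', h1, h2, ext fun y => ⟨fun h l e => (h4 l y e).elim fun l' e' => h l' e'.2,
    fun h l e => h _ (h3 l e)⟩, p, h3, h4, h5⟩

/-- the pair given by the connected components of a divisor -/
def Pr.ofSnc (Y : Mf n) (hY : Y.Kah) {κ : Type} [Fintype κ] {G : κ → Set Y.X} (hG : Snc n G) :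
    Pr n where
  Y := Y
  kah := hY
  r := (ex_cmp hG).choose
  G := (ex_cmp hG).choose_spec.choose
  snc := (ex_cmp hG).choose_spec.choose_spec.1
  conn := (ex_cmp hG).choose_spec.choose_spec.2.1

theorem Pr.ofSnc_off (Y : Mf n) (hY : Y.Kah) {κ : Type} [Fintype κ] {G : κ → Set Y.X}
    (hG : Snc n G) : off (Pr.ofSnc Y hY hG).G = off G := (ex_cmp hG).choose_spec.choose_spec.2.2.1

/-- the compactification given by a divisor whose components need not be connected -/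
def Cp.ofSnc (Y : Mf n) (hY : Y.Kah) {κ : Type} [Fintype κ] {G : κ → Set Y.X} (hG : Snc n G)
    {j : U → Y.X} (hj : Emb n n j (off G)) : Cp n U where
  toPr := .ofSnc Y hY hG
  j := j
  emb := ⟨hj.hol, hj.inj, hj.imm, hj.rng.trans (Pr.ofSnc_off Y hY hG).symm⟩

/-- a compact manifold is its own compactification -/
def Cp.self (Y : Mf n) (hY : Y.Kah) : Cp n Y.X where
  Y := Y
  kah := hY
  r := 0
  G := Fin.elim0
  snc x := ⟨Fin.elim0, fun l => l.elim0, fun l => l.1.elim0, fun _ _ =>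
    have : IsEmpty {l : Fin 0 // x ∈ (Fin.elim0 l : Set Y.X)} := ⟨fun l => l.1.elim0⟩
    linearIndependent_empty_type⟩
  conn l := l.elim0
  j x := x
  emb := ⟨holM_id, fun _ _ e => e, imm_id, ext fun x => iff_of_true ⟨x, rfl⟩ fun l => l.elim0⟩

/-- transport along a biholomorphic map -/
def Cp.comap {U' : Type} [TopologicalSpace U'] [ChartedSpace (Cm n) U']
    [IsManifold 𝓘(ℂ, Cm n) ω U'] (c : Cp n U) {i : U' → U} (hi : Emb n n i univ) : Cp n U' where
  toPr := c.toPr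
  j x := c.j (i x)
  emb := ⟨c.hol.comp hi.hol, c.inj.comp hi.inj,
    fun x => .comp (c.hol.at _) (hi.hol.at x) (c.emb.imm _) (hi.imm x),
    ((range_eq_univ.1 hi.rng).range_comp c.j).trans c.emb.rng⟩

theorem Cp.ext_self (c : Cp n U) : Ext c (.self c.Y c.kah) c.j fun y => y := ⟨holM_id, fun _ => rfl⟩

theorem snc_prod {X : Mf n} {Y : Mf m} {κ κ' : Type} [Fintype κ] [Fintype κ'] {G : κ → Set X.X}
    {G' : κ' → Set Y.X} (h : Snc n G) (h' : Snc m G') :
    Snc (n + m) (Sum.elim (fun l => X.p1 Y ⁻¹' G l) fun l => X.p2 Y ⁻¹' G' l) := fun z => by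
  classical
  obtain ⟨ζ, h1, h2⟩ := h (X.p1 Y z)
  obtain ⟨ξ, k1, k2⟩ := h' (X.p2 Y z)
  have hl : ∀ l, LEq (n + m) (Sum.elim (fun l => X.p1 Y ⁻¹' G l) (fun l => X.p2 Y ⁻¹' G' l) l) z
      (Sum.elim (fun l y => ζ l (X.p1 Y y)) (fun l y => ξ l (X.p2 Y y)) l) :=
    Sum.rec (fun l => (sbm_p1 z).leq (hol_p1.at z) (h1 l))
      fun l => (sbm_p2 z).leq (hol_p2.at z) (k1 l)
  refine ⟨_, hl, fun l => (hl l).hol, fun e he => (ind_iff_surj _).2 fun w => ?_⟩
  obtain ⟨a, ha⟩ := (ind_iff_surj _).1 (h2.2 _ (at_chart _)) fun l => w ⟨.inl l.1, l.2⟩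
  obtain ⟨b, hb⟩ := (ind_iff_surj _).1 (k2.2 _ (at_chart _)) fun l => w ⟨.inr l.1, l.2⟩
  obtain ⟨v, v1, v2⟩ := (sbm_pair (hol_p1.at z) (hol_p2.at z) he (at_chart _) (at_chart _)).1
    (sbm_id z) a b
  refine ⟨v, funext ?_⟩
  rintro ⟨l | l, hl⟩
  · exact (DFunLike.congr_fun (dd_comp (h1 l).hol (hol_p1.at z) he (at_chart _)) v).trans
      ((congrArg _ v1).trans (congrFun ha ⟨l, hl⟩))
  · exact (DFunLike.congr_fun (dd_comp (k1 l).hol (hol_p2.at z) he (at_chart _)) v).trans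
      ((congrArg _ v2).trans (congrFun hb ⟨l, hl⟩))

/-- the complex structure of a product -/
scoped instance csProd : ChartedSpace (Cm (n + m)) (U × V) := prodCS n m U V

scoped instance mfProd : IsManifold 𝓘(ℂ, Cm (n + m)) ω (U × V) := isManifold_prod

theorem hol_fst : HolM (n + m) n (Prod.fst : U × V → U) := fun z => by
  have he := at_chart (n := n) z.1
  refine HolA.of_an continuous_fst.continuousAt (at_pc he (at_chart z.2)) he ?_
  exact AnalyticAt.fun_comp (f := fstP) (g := fun w => chartAt (Cm n) z.1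
    ((chartAt (Cm n) z.1).symm w)) ((fstP_glue _ _).symm ▸ trans_an he he)
    contDiff_fstP.contDiffAt.analyticAt

theorem hol_snd : HolM (n + m) m (Prod.snd : U × V → V) := fun z => by
  have he := at_chart (n := m) z.2
  refine HolA.of_an continuous_snd.continuousAt (at_pc (at_chart z.1) he) he ?_
  exact AnalyticAt.fun_comp (f := sndP) (g := fun w => chartAt (Cm m) z.2
    ((chartAt (Cm m) z.2).symm w)) ((sndP_glue _ _).symm ▸ trans_an he he)
    contDiff_sndP.contDiffAt.analyticAt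

variable {f : W → U} {g : W → V} {z : W}

theorem holA_mk (hf : HolA k n f z) (hg : HolA k m g z) :
    HolA k (n + m) (fun z => (f z, g z)) z :=
  .of_an (hf.cont.prodMk hg.cont) (at_chart z) (at_pc (at_chart (f z)) (at_chart (g z)))
    (contDiff_glue (hf.an (at_chart z) (at_chart _)).contDiffAt
      (hg.an (at_chart z) (at_chart _)).contDiffAt).analyticAt

theorem holM_mk (hf : HolM k n f) (hg : HolM k m g) : HolM k (n + m) fun z => (f z, g z) :=
  fun z => holA_mk (hf.at z) (hg.at z)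

theorem imm_mk_left (h : Imm k n f z) (hf : HolA k n f z) (hg : HolA k m g z) :
    Imm k (n + m) (fun z => (f z, g z)) z := .of_comp (hol_fst.at _) (holA_mk hf hg) h

theorem imm_mk_right (h : Imm k m g z) (hf : HolA k n f z) (hg : HolA k m g z) :
    Imm k (n + m) (fun z => (f z, g z)) z := .of_comp (hol_snd.at _) (holA_mk hf hg) h

theorem sbm_fst (z : U × V) : Sbm (n + m) n Prod.fst z :=
  Sbm.of_comp (f := fun x => (x, z.2)) (x := z.1) (hol_fst.at _)
    ((holM_mk holM_id (holM_const _)).at _) (sbm_id _)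

theorem sbm_snd (z : U × V) : Sbm (n + m) m Prod.snd z :=
  Sbm.of_comp (f := fun y => (z.1, y)) (x := z.2) (hol_snd.at _)
    ((holM_mk (holM_const _) holM_id).at _) (sbm_id _)

/-- products of immersions -/
theorem imm_prodMap {n' m' : ℕ} {U' V' : Type} [TopologicalSpace U'] [ChartedSpace (Cm n') U']
    [IsManifold 𝓘(ℂ, Cm n') ω U'] [TopologicalSpace V'] [ChartedSpace (Cm m') V']
    [IsManifold 𝓘(ℂ, Cm m') ω V'] {a : U → U'} {b : V → V'} {z : U × V} (ha : HolA n n' a z.1)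
    (hb : HolA m m' b z.2) (h1 : Imm n n' a z.1) (h2 : Imm m m' b z.2) :
    Imm (n + m) (n' + m') (fun z : U × V => (a z.1, b z.2)) z := by
  obtain ⟨a', -, a1, a2⟩ := h1.ret ha
  obtain ⟨b', -, b1, b2⟩ := h2.ret hb
  refine .of_comp (g := fun w : U' × V' => (a' w.1, b' w.2))
    (holA_mk (HolA.cmp (f := Prod.fst) a1 (hol_fst.at _)) (HolA.cmp (f := Prod.snd) b1 (hol_snd.at _)))
    (holA_mk (ha.cmp (hol_fst.at z)) (hb.cmp (hol_snd.at z))) ((imm_id z).cng ?_)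
  filter_upwards [continuousAt_fst.eventually a2, continuousAt_snd.eventually b2] with w k1 k2
  rw [k1, k2]

/-- the product of two compactifications -/
def Cp.prod (c : Cp n U) (c' : Cp m V) : Cp (n + m) (U × V) :=
  .ofSnc (c.Y.prod c'.Y) (c.kah.prod c'.kah) (snc_prod c.snc c'.snc)
    (j := fun z => c.Y.pair c'.Y (c.j z.1) (c'.j z.2))
    ⟨(c.hol.comp hol_fst).pair (c'.hol.comp hol_snd),
      fun _ _ e => Prod.ext (c.inj (pair_inj.1 e).1) (c'.inj (pair_inj.1 e).2),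
      fun z => imm_prodMap (c.hol.at z.1) (c'.hol.at z.2) (c.emb.imm _) (c'.emb.imm _),
      ext fun _ => ⟨fun ⟨z, e⟩ => e ▸ Sum.rec (c.mem z.1) (c'.mem z.2), fun h =>
        let ⟨x, hx⟩ := c.ex fun l => h (.inl l)
        let ⟨y, hy⟩ := c'.ex fun l => h (.inr l)
        ⟨(x, y), prod_ext hx hy⟩⟩⟩

variable {c : Cp n U} {c' : Cp m V} {c₀ : Cp k W}

theorem Ext.fst : Ext (c.prod c') c Prod.fst (c.Y.p1 c'.Y) := ⟨hol_p1, fun _ => rfl⟩

theorem Ext.snd : Ext (c.prod c') c' Prod.snd (c.Y.p2 c'.Y) := ⟨hol_p2, fun _ => rfl⟩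

theorem Ext.pair {F : c₀.Y.X → c.Y.X} {G : c₀.Y.X → c'.Y.X} (h : Ext c₀ c f F) (h' : Ext c₀ c' g G) :
    Ext c₀ (c.prod c') (fun z => (f z, g z)) fun y => c.Y.pair c'.Y (F y) (G y) :=
  ⟨h.hol.pair h'.hol, fun x => pair_inj.2 ⟨h.eq x, h'.eq x⟩⟩

theorem Alg.fst : Alg (c.prod c') c Prod.fst := Ext.fst.alg

theorem Alg.snd : Alg (c.prod c') c' Prod.snd := Ext.snd.alg

theorem Alg.pair (h : Alg c₀ c f) (h' : Alg c₀ c' g) : Alg c₀ (c.prod c') fun z => (f z, g z) :=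
  let ⟨_, _, _, h1, h2⟩ := h.ext
  let ⟨_, _, _, h3, h4⟩ := (h'.comp h1.alg).ext
  ((h2.comp h3).pair h4).alg.comp (h1.comp h3).alg.symm

/-- the complement of a Zariski closed set -/
theorem Cp.compl (c : Cp n U) {Z : Set U} (hZ : Zc c Z) {U' : Type} [TopologicalSpace U']
    [ChartedSpace (Cm n) U'] [IsManifold 𝓘(ℂ, Cm n) ω U'] {i : U' → U} (hi : Emb n n i Zᶜ) :
    ∃ (c₁ : Cp n U') (F : c₁.Y.X → c.Y.X), Ext c₁ c i F ∧ (c.Y.Prj → c₁.Y.Prj) ∧
      ∀ y x, F y = c.j (i x) → y = c₁.j x :=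
  c.sub (.univ c) hZ (compl_eq_univ_sdiff Z ▸ hi) (emb_open hi).isInducing

/-- a Zariski closed submanifold -/
theorem Cp.closed (c : Cp n U) {Z : Set U} (hZ : Zc c Z) {i : W → U} (hi : Emb k n i Z)
    (he : IsInducing i) : ∃ (c₁ : Cp k W) (F : c₁.Y.X → c.Y.X), Ext c₁ c i F ∧
      (c.Y.Prj → c₁.Y.Prj) ∧ ∀ y x, F y = c.j (i x) → y = c₁.j x :=
  c.sub hZ (.empty c) ((sdiff_empty (s := Z)).symm ▸ hi) he

end Vale.Agent.P275RG
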