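import Vale.Agent.P275RG.Prod

/-!
# P275, good compactifications: principalization, open subsets of compact manifolds
-/

open scoped Manifold ContDiff Topology
open Set Filter Function Topology
open Vale.Agent.P272.K (Cm Chart At)
open Vale.Agent.P277Z (Hol hol_const at_chart)
open Vale.Agent.P277Z.Slc (Snc LEq)
open Vale.Agent.P281Z

set_option linter.unusedSectionVars false

noncomputable section

namespace Vale.Agent.P275RG

variable {n m k : ℕ} {U V W : Type} [TopologicalSpace U] [ChartedSpace (Cm n) U]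
  [IsManifold 𝓘(ℂ, Cm n) ω U] [TopologicalSpace V] [ChartedSpace (Cm m) V]
  [IsManifold 𝓘(ℂ, Cm m) ω V] [TopologicalSpace W] [ChartedSpace (Cm k) W]
  [IsManifold 𝓘(ℂ, Cm k) ω W]

/-- the product of two ideals -/
def imul (I J : Idl n U) : Idl n U where
  Γ := I.Γ × J.Γ
  U γ := I.U γ.1 ∩ J.U γ.2
  k γ := I.k γ.1 * J.k γ.2
  g γ i x := I.g γ.1 (finProdFinEquiv.symm i).1 x * J.g γ.2 (finProdFinEquiv.symm i).2 x
  isOpen γ := (I.isOpen _).inter (J.isOpen _)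
  cover x := (I.cover x).elim fun a ha => (J.cover x).elim fun b hb => ⟨(a, b), ha, hb⟩
  hol γ _ x hx := (I.hol _ _ x hx.1).mul (J.hol _ _ x hx.2)
  cpb γ γ' x hx hx' := by
    obtain ⟨C, h1, h2⟩ := I.cpb _ _ x hx.1 hx'.1
    obtain ⟨C', h3, h4⟩ := J.cpb _ _ x hx.2 hx'.2
    have e : ∀ (γ : I.Γ × J.Γ) y, ∑ i : Fin (I.k γ.1 * J.k γ.2),
        ‖I.g γ.1 (finProdFinEquiv.symm i).1 y * J.g γ.2 (finProdFinEquiv.symm i).2 y‖ =
          (∑ i, ‖I.g γ.1 i y‖) * ∑ j, ‖J.g γ.2 j y‖ := fun γ y => by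
      rw [finProdFinEquiv.symm.sum_comp fun q => ‖I.g γ.1 q.1 y * J.g γ.2 q.2 y‖,
        Fintype.sum_prod_type, Finset.sum_mul_sum]
      simp only [norm_mul]
    refine ⟨C * C', mul_pos h1 h3, (h2.and h4).mono fun y ⟨a, b⟩ => ?_⟩
    simp only [e, mul_mul_mul_comm C C']
    exact ⟨mul_le_mul a.1 b.1 (by positivity) (by positivity),
      mul_le_mul a.2 b.2 (by positivity) (by positivity)⟩

theorem imul_Z (I J : Idl n U) : (imul I J).Z = I.Z ∪ J.Z := ext fun x => by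
  obtain ⟨a, ha⟩ := I.cover x
  obtain ⟨b, hb⟩ := J.cover x
  rw [mem_union, Idl.mem_Z ha, Idl.mem_Z hb, Idl.mem_Z (I := imul I J) (γ := (a, b)) ⟨ha, hb⟩]
  refine finProdFinEquiv.symm.forall_congr_left.trans ?_
  simp only [imul, Equiv.symm_symm, Equiv.symm_apply_apply, mul_eq_zero, Prod.forall,
    forall_or_left, forall_or_right]

theorem ev_of_dense {X : Type} [TopologicalSpace X] {S : Set X} (hd : Dense S) {F : X → ℂ} {y : X}
    (hc : ∀ᶠ z in 𝓝 y, ContinuousAt F z) (h : ∀ᶠ z in 𝓝 y, z ∈ S → F z = 0) :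
    ∀ᶠ z in 𝓝 y, F z = 0 := by
  filter_upwards [hc, h.eventually_nhds] with z h1 h2
  exact of_not_not fun e => mem_closure_iff_frequently.1 (hd z)
    ((h2.and (h1.eventually_ne e)).mono fun _ a b => a.2 (a.1 b))

/-- `sub`, with a part of the boundary whose preimage is a union of components -/
theorem sub_prin (M : Mf m) (hM : M.Kah) {A B B₀ : Set M.X} (hA : An m A) (hB : An m B)
    (hB₀ : An m B₀) (h₀ : B₀ ⊆ B) {i : U → M.X} (hi : Emb n m i (A \ B)) (he : IsInducing i) :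
    ∃ (c : Cp n U) (π : c.Y.X → M.X), HolM n m π ∧ (∀ x, π (c.j x) = i x) ∧
      (∀ y, π y ∉ B ↔ y ∈ off c.G) ∧ (M.Prj → c.Y.Prj) ∧
      ∀ y, π y ∈ B₀ → ∃ l, y ∈ c.G l ∧ ∀ z ∈ c.G l, π z ∈ B₀ := by
  obtain ⟨I, rfl⟩ := idl m M B₀ hB₀
  obtain ⟨J, rfl⟩ := idl m M B hB
  have hI : (imul I J).Z = J.Z := (imul_Z I J).trans (union_eq_right.2 h₀)
  obtain ⟨R⟩ := Rs.res m n M A (imul I J) hA (hI ▸ emb_subM hi he)
  have hO := R.ovr
  have hb := R.bad
  rw [hI] at hO hb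
  have hm : ∀ x, i x ∈ A \ J.Z := fun x => hi.rng ▸ mem_range_self x
  choose j hj using fun x => hO.ex (hm x).1 (hm x).2
  have h0 : ∀ y, R.π y ∉ J.Z ↔ y ∈ off R.G := fun y => by rw [hb, ← not_off, not_not]
  have h1 : HolM n n j := fun x =>
    hO.lift_at (by rw [hj]; exact (hm x).2) ((hi.hol.at x).cng (.of_forall fun z => (hj z).symm))
  refine ⟨⟨⟨R.V, R.kah hM, R.r, R.G, R.snc, R.conn⟩, j, h1,
    fun x x' e => hi.inj (by rw [← hj, ← hj, e]), fun x => .of_comp (hO.hol.at _) (h1.at x)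
      ((hi.imm x).cng (.of_forall fun z => (hj z).symm)), ?_⟩, R.π, hO.hol, hj, h0, R.prj,
    fun y hy => ?_⟩
  · ext y
    refine ⟨?_, fun hy => ?_⟩
    · rintro ⟨x, rfl⟩
      exact (h0 _).1 (by rw [hj]; exact (hm x).2)
    · obtain ⟨x, hx⟩ : R.π y ∈ range i := hi.rng ▸ ⟨hO.maps y, (h0 y).2 hy⟩
      exact ⟨x, hO.inj ((h0 y).2 hy) ((hj x).trans hx)⟩
  obtain ⟨a, ha⟩ := I.cover (R.π y)
  obtain ⟨b, hb⟩ := J.cover (R.π y)
  obtain ⟨ζ, hζ, -⟩ := R.snc y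
  obtain ⟨u, u1, ⟨q, u2⟩, u3⟩ := R.prin y (a, b) ⟨ha, hb⟩ ζ hζ
  obtain ⟨⟨s, t⟩, rfl⟩ := finProdFinEquiv.surjective q
  have u4 : ∀ᶠ z in 𝓝 y, ∀ s, I.g a s (R.π z) * J.g b t (R.π z) =
      u (finProdFinEquiv (s, t)) z * ∏ l, ζ l z ^ R.e l := u3.mono fun z hz s => by
    simpa only [imul, Equiv.symm_apply_apply] using hz (finProdFinEquiv (s, t))
  have u5 : ∀ᶠ z in 𝓝 y, z ∈ off R.G → I.g a s (R.π z) * J.g b t (R.π z) ≠ 0 := by
    filter_upwards [u4, (u1 _).ne_near u2, eventually_all.2 fun l => (hζ l).1] with z k1 k2 k3 k4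
    exact k1 s ▸ mul_ne_zero k2
      (Finset.prod_ne_zero_iff.2 fun l _ => pow_ne_zero _ fun e => k4 l ((k3 l).1 e))
  have u6 : ∀ s, Hol n (fun z => I.g a s (R.π z)) y := fun s => hO.hol.hol (I.hol a s _ ha)
  obtain ⟨e, v, -, v2, v3⟩ := Nt.Hp.mon R.snc hζ (u6 s)
    (u5.mono fun z hz k => left_ne_zero_of_mul (hz k))
  obtain ⟨l, -, hl⟩ := Finset.prod_eq_zero_iff.1 ((mul_eq_zero.1
    (v3.self_of_nhds.symm.trans ((Idl.mem_Z ha).1 hy s))).resolve_left v2)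
  have h5 := (hζ l).mem.1 (eq_zero_of_pow_eq_zero hl)
  refine ⟨l, h5, Nt.Hp.idh (R.conn l).isPreconnected (fun x => (R.snc x).elim fun ζ h => ⟨_, h.1 l⟩)
    (hB₀.pre hO.hol) h5 ?_⟩
  have u7 := fun s' => ev_of_dense (snc_dense_off R.snc)
    ((((u1 (finProdFinEquiv (s, t))).mul (u6 s')).sub
      ((u1 (finProdFinEquiv (s', t))).mul (u6 s))).near.mono fun _ k => k.cont) (by
      filter_upwards [u4, u5] with z k1 k2 k3
      exact mul_right_cancel₀ (right_ne_zero_of_mul (k2 k3))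
        (by
          linear_combination (u (finProdFinEquiv (s, t)) z) * k1 s' -
            (u (finProdFinEquiv (s', t)) z) * k1 s))
  filter_upwards [eventually_all.2 u7, v3, (hζ l).1, (u1 _).ne_near u2,
    hO.hol.cont.continuousAt.eventually ((I.isOpen a).eventually_mem ha)] with z k1 k2 k3 k4 k5 k6
  have k7 : I.g a s (R.π z) = 0 := k2.trans (mul_eq_zero_of_right _ (Finset.prod_eq_zero
    (Finset.mem_univ l) (by rw [k3.2 k6]; exact zero_pow fun e => by simp [e] at hl)))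
  refine (Idl.mem_Z k5).2 fun s' => (mul_eq_zero.1 ?_).resolve_left k4
  simpa only [k7, mul_zero, sub_zero] using k1 s'

variable {c c₁ : Cp n U} {c' : Cp m V}

/-- the preimage of `B` is a union of components -/
def Cp.Un (c : Cp n U) (B : Set c.Y.X) : Prop := ∀ y ∈ B, ∃ l, y ∈ c.G l ∧ c.G l ⊆ B

theorem Cp.Un.pre {f : U → V} {F : c.Y.X → c'.Y.X} {B : Set c'.Y.X} (h : c'.Un B)
    (hF : Ext c c' f F) : c.Un (F ⁻¹' B) := fun _ hy =>
  let ⟨_, h1, h2⟩ := h _ hy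
  let ⟨l, h3, h4⟩ := hF.comps h1
  ⟨l, h3, fun z hz => h2 (h4 z hz)⟩

theorem Cp.prin (c : Cp n U) {B : Set c.Y.X} (hB : An n B) (h : B ⊆ (off c.G)ᶜ) :
    ∃ (c₁ : Cp n U) (p : c₁.Y.X → c.Y.X), Ext c₁ c (fun x => x) p ∧ c₁.Un (p ⁻¹' B) :=
  let ⟨c₁, p, h1, h2, _, _, h3⟩ := sub_prin c.Y c.kah an_univ c.bd hB h (i := c.j)
    ⟨c.hol, c.inj, c.emb.imm, c.emb.rng.trans (by simp)⟩ c.opn.isInducing
  ⟨c₁, p, ⟨h1, h2⟩, h3⟩

/-- finitely many analytic subsets of the boundary become unions of components -/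
theorem Cp.prin_fin (c : Cp n U) {ι : Type} [Finite ι] {B : ι → Set c.Y.X} (hB : ∀ a, An n (B a))
    (h : ∀ a, B a ⊆ (off c.G)ᶜ) :
    ∃ (c₁ : Cp n U) (p : c₁.Y.X → c.Y.X), Ext c₁ c (fun x => x) p ∧ ∀ a, c₁.Un (p ⁻¹' B a) := by
  classical
  have key : ∀ s : Finset ι, ∃ (c₁ : Cp n U) (p : c₁.Y.X → c.Y.X), Ext c₁ c (fun x => x) p ∧
      ∀ a ∈ s, c₁.Un (p ⁻¹' B a) := fun s => by
    induction s using Finset.induction_on with
    | empty => exact ⟨c, _, .id c, by simp⟩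
    | insert a s _ ih =>
      obtain ⟨c₁, p, h1, h2⟩ := ih
      obtain ⟨c₂, q, h3, h4⟩ := c₁.prin ((hB a).pre h1.hol) fun y hy e => h a hy (h1.maps e)
      exact ⟨c₂, _, h1.comp h3, (Finset.forall_mem_insert _ _ _).2
        ⟨h4, fun b hb => (h2 b hb).pre h3⟩⟩
  have := Fintype.ofFinite ι
  obtain ⟨c₁, p, h1, h2⟩ := key Finset.univ
  exact ⟨c₁, p, h1, fun a => h2 a (Finset.mem_univ a)⟩

/-! ### open subsets -/

theorem opens_emb (O : TopologicalSpace.Opens U) : Emb n n (Subtype.val : O → U) O :=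
  ⟨contMDiff_subtype_val, Subtype.val_injective, fun x =>
    .of_chart (contMDiff_subtype_val x) (at_chart x) (at_chart _)
      (imm_id (n := n) x _ _ (at_chart x) (at_chart x)),
    Subtype.range_coe⟩

theorem zc_self {S : Mf n} (hS : S.Kah) {B : Set S.X} (hB : An n B) : Zc (.self S hS) B :=
  ⟨B, hB, rfl⟩

/-- the complement of an analytic subset of a compact manifold -/
theorem ex_off (S : Mf n) (hS : S.Kah) {B : Set S.X} (hB : An n B) {i : U → S.X}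
    (hi : Emb n n i Bᶜ) : ∃ (c : Cp n U) (π : c.Y.X → S.X), Ext c (.self S hS) i π ∧
      ∀ y, π y ∉ B ↔ y ∈ off c.G :=
  let ⟨c, π, h1, h2, h3, _⟩ := sub S hS an_univ hB (compl_eq_univ_sdiff B ▸ hi)
    (emb_open hi).isInducing
  ⟨c, π, ⟨h1, h2⟩, h3⟩

/-- holomorphic maps of compact manifolds induce algebraic maps -/
theorem alg_off {S : Mf n} {S' : Mf m} {hS : S.Kah} {hS' : S'.Kah} {i : U → S.X} {i' : V → S'.X}
    (hi : Alg c (.self S hS) i) (hi' : Alg c' (.self S' hS') i') (h1 : IsInducing i')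
    (h2 : ∀ x, Imm m m i' x) {F : S.X → S'.X} (hF : HolM n m F) {f : U → V}
    (e : ∀ x, i' (f x) = F (i x)) : Alg c c' f :=
  hi'.lift h1 h2 (by
    simpa only [e] using (⟨hF, fun _ => rfl⟩ : Ext (.self S hS) (.self S' hS') F F).alg.comp hi)

theorem proper_off {X X' : Type} [TopologicalSpace X] [TopologicalSpace X'] [CompactSpace X]
    [T2Space X'] {i : U → X} {i' : V → X'} (hi : IsInducing i) (hi' : IsEmbedding i') {F : X → X'}
    (hF : Continuous F) {f : U → V} (e : ∀ x, i' (f x) = F (i x))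
    (h : ∀ y, F y ∈ range i' → y ∈ range i) : IsProperMap f := by
  refine isProperMap_iff_ultrafilter.2 ⟨hi'.continuous_iff.2
    ((hF.comp hi.continuous).congr fun x => (e x).symm), fun 𝒰 v hv => ?_⟩
  obtain ⟨y, hy⟩ := isCompact_univ.ultrafilter_le_nhds' (𝒰.map i) univ_mem
  have h1 : F y = i' v := tendsto_nhds_unique
    (((hF.tendsto y).comp hy.2).congr fun x => (e x).symm) ((hi'.continuous.tendsto v).comp hv)
  obtain ⟨x, rfl⟩ := h y ⟨v, h1.symm⟩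
  exact ⟨x, hi'.injective ((e x).trans h1), hi.tendsto_nhds_iff.2 hy.2⟩

end Vale.Agent.P275RG
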