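import Vale.Agent.P275RG.Aff
import Vale.Agent.P275RG.Prin

/-!
# P275, good compactifications: descent along finite covers, maps to the projective space
-/

open scoped Manifold ContDiff Topology
open Set Filter Function Topology
open Vale.Agent.P272.K (Cm Chart At)
open Vale.Agent.P277Z (Hol hol_const at_chart)
open Vale.Agent.P281Z

set_option linter.unusedSectionVars false

noncomputable section

namespace Vale.Agent.P275RG

variable {n m k N : ℕ} {U V W : Type} [TopologicalSpace U] [ChartedSpace (Cm n) U]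
  [IsManifold 𝓘(ℂ, Cm n) ω U] [TopologicalSpace V] [ChartedSpace (Cm m) V]
  [IsManifold 𝓘(ℂ, Cm m) ω V] [TopologicalSpace W] [ChartedSpace (Cm k) W]
  [IsManifold 𝓘(ℂ, Cm k) ω W] {c : Cp n U} {c' : Cp m V} {c'' : Cp k W}

section cover

variable {ι : Type} [Finite ι] {d : ι → ℕ} {Z : ι → Type} [∀ a, TopologicalSpace (Z a)]
  [∀ a, ChartedSpace (Cm (d a)) (Z a)] [∀ a, IsManifold 𝓘(ℂ, Cm (d a)) ω (Z a)]
  {e : ∀ a, Cp (d a) (Z a)} {π : ∀ a, Z a → V}

theorem Zc.desc_fin (hπ : ∀ a, Alg (e a) c' (π a)) (hs : ∀ v, ∃ a x, π a x = v) {T : Set V}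
    (hT : IsClosed T) (h : ∀ a, Zc (e a) (π a ⁻¹' T)) : Zc c' T := by
  have h1 : T = ⋃ a, closure (π a '' (π a ⁻¹' T)) := by
    refine subset_antisymm (fun v hv => ?_) (iUnion_subset fun a =>
      closure_minimal (image_preimage_subset _ _) hT)
    obtain ⟨a, x, rfl⟩ := hs v
    exact mem_iUnion.2 ⟨a, subset_closure ⟨x, hv, rfl⟩⟩
  exact h1 ▸ .iUnion fun a => (h a).clo (hπ a)

theorem Zc.desc {p : U → V} (hp : Alg c c' p) (hs : Surjective p) {T : Set V} (hT : IsClosed T)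
    (h : Zc c (p ⁻¹' T)) : Zc c' T :=
  Zc.desc_fin (ι := Unit) (e := fun _ => c) (fun _ => hp) (fun v => ⟨(), hs v⟩) hT fun _ => h

theorem alg_iff_zc {g : V → W} (hg : HolM m k g) :
    Alg c' c'' g ↔ Zc (c'.prod c'') {z | g z.1 = z.2} := by
  refine ⟨fun h => (h.comp .fst).zc_eq .snd, fun ⟨A, h1, h2⟩ => ?_⟩
  have h3 : gr c' c'' g = A \ (off (c'.prod c'').G)ᶜ := by
    rw [sdiff_compl, ← (c'.prod c'').emb.rng, ← image_preimage_eq_inter_range, h2]
    exact Set.ext fun z => ⟨fun ⟨x, e⟩ => ⟨(x, g x), rfl, e⟩,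
      fun ⟨w, e, e'⟩ => ⟨w.1, (pair_inj.2 ⟨rfl, congrArg c''.j e⟩).trans e'⟩⟩
  exact ⟨hg, h3 ▸ Rs.clo _ _ _ _ h1 (c'.prod c'').bd⟩

/-- being algebraic is local for finite covers -/
theorem Alg.desc_fin (hπ : ∀ a, Alg (e a) c' (π a)) (hs : ∀ v, ∃ a x, π a x = v) {g : V → W}
    (hg : HolM m k g) (h : ∀ a, Alg (e a) c'' fun x => g (π a x)) : Alg c' c'' g :=
  have := c''.t2
  (alg_iff_zc hg).2 (Zc.desc_fin (e := fun a => (e a).prod c'') (π := fun a z => (π a z.1, z.2))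
    (fun a => ((hπ a).comp .fst).pair .snd)
    (fun v => (hs v.1).imp fun _ ⟨x, hx⟩ => ⟨(x, v.2), Prod.ext hx rfl⟩)
    (isClosed_eq (hg.cont.comp continuous_fst) continuous_snd)
    fun a => ((h a).comp .fst).zc_eq .snd)

theorem Reg.desc_fin (hπ : ∀ a, Alg (e a) c' (π a)) (hs : ∀ v, ∃ a x, π a x = v) {t : V → ℂ}
    (ht : ∀ v, Hol m t v) (h : ∀ a, Reg (e a) fun x => t (π a x)) : Reg c' t :=
  (alg_iff_reg (t := fun v (_ : Fin 1) => t v)).1 (.desc_fin hπ hs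
    (fun v => holA_iff.2 fun _ => ht v) fun a => alg_iff_reg.2 fun _ => h a) 0

theorem Reg.desc_alg {p : U → V} (hp : Alg c c' p) (hs : Surjective p) {t : V → ℂ}
    (ht : ∀ v, Hol m t v) (h : Reg c fun x => t (p x)) : Reg c' t :=
  Reg.desc_fin (ι := Unit) (e := fun _ => c) (fun _ => hp) (fun v => ⟨(), hs v⟩) ht fun _ => h

end cover

theorem ps_kah (S : PS N) : S.P.Kah := S.pos.kah S.lb P277Z.Pos.kah

/-- the projective space as a variety -/
def cP (S : PS N) : Cp N S.P.X := .self S.P (ps_kah S)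

variable {S : PS N} {s : U → Cm (N + 1)}

/-- regular functions without a common zero define an algebraic map -/
theorem alg_pt (hs : ∀ a, Reg c fun x => s x a) (h0 : ∀ x, s x ≠ 0) :
    Alg c (cP S) fun x => S.pt (s x) := by
  refine (alg_iff_zc fun x => S.holA (fun a => (hs a).hol x) (h0 x)).2 (.of_loc fun w => ?_)
  choose a b h1 h2 h3 using fun i => ((hs i).ext (Ext.fst (c' := cP S))).mer w
  obtain ⟨g, hp⟩ := S.lb.cover (c.Y.p2 S.P w)
  refine ⟨Fin (N + 1) × Fin (N + 1), inferInstance, fun q w => a q.1 w * b q.2 w *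
    S.x g (c.Y.p2 S.P w) q.2 - a q.2 w * b q.1 w * S.x g (c.Y.p2 S.P w) q.1, fun q =>
    (((h1 _).mul (h2 _)).mul (hol_p2.hol (S.xhol hp _))).sub
      (((h1 _).mul (h2 _)).mul (hol_p2.hol (S.xhol hp _))), ?_⟩
  filter_upwards [eventually_all.2 h3,
    cont_p2.continuousAt.eventually ((S.lb.isOpen g).eventually_mem hp)] with z l1 l2 x hx
  have e : c.Y.p2 S.P z = x.2 := hx ▸ rfl
  replace l2 : x.2 ∈ S.H.U g := e ▸ l2
  rw [e, ← S.pt_x' l2, S.pt_eq_iff' (h0 _) (S.xnz g _ l2), S.pt_x' l2, Prod.forall]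
  refine forall₂_congr fun i j => ?_
  rw [← (l1 i x hx).2, ← (l1 j x hx).2, ← sub_eq_zero,
    ← mul_eq_zero_iff_left (mul_ne_zero (l1 i x hx).1 (l1 j x hx).1)]
  exact Eq.congr_left (by ring)

/-- the affine coordinates of an algebraic map are regular -/
theorem reg_ratio {φ : U → S.P.X} (h : Alg c (cP S) φ) (e : ∀ x, φ x = S.pt (s x)) (a : Fin (N + 1))
    {b : Fin (N + 1)} (hb : ∀ x, s x b ≠ 0) : Reg c fun x => s x a / s x b := by
  obtain ⟨c₁, p, F, h1, h2⟩ := h.ext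
  have h0 : ∀ x, s x ≠ 0 := fun x => ne_iff.2 ⟨b, hb x⟩
  have h3 : ∀ x, F (c₁.j x) = S.pt (s x) := fun x => (h2.eq x).trans (e x)
  refine Reg.desc ⟨fun x => ?_, fun y => ?_⟩ h1
  · obtain ⟨g, hg⟩ := S.lb.cover (φ x)
    refine ((h.hol.hol (S.xhol hg a)).div (h.hol.hol (S.xhol hg b))
      (e x ▸ (S.x_ne_iff (h0 x) (e x ▸ hg) b).2 (hb x))).congr ?_
    filter_upwards [h.cont.continuousAt.eventually ((S.lb.isOpen g).eventually_mem hg)] with z hz
    rw [e z] at hz ⊢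
    exact S.ratio (h0 z) hz a b
  · obtain ⟨g, hg⟩ := S.lb.cover (F y)
    refine ⟨fun z => S.x g (F z) a, fun z => S.x g (F z) b, h2.hol.hol (S.xhol hg a),
      h2.hol.hol (S.xhol hg b), ?_⟩
    filter_upwards [h2.hol.cont.continuousAt.eventually ((S.lb.isOpen g).eventually_mem hg)]
      with z hz x hx
    rw [← hx, h3] at hz ⊢
    have h4 := (S.x_ne_iff (h0 x) hz b).2 (hb x)
    exact ⟨h4, by rw [← S.ratio (h0 x) hz a b, div_mul_cancel₀ _ h4]⟩

/-- homogeneous equations -/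
theorem zc_hom {φ : U → S.P.X} (h : Alg c (cP S) φ) {T : Set U} {ι : Type} [Finite ι]
    {P : ι → MvPolynomial (Fin (N + 1)) ℂ}
    (e : ∀ x v, v ≠ 0 → φ x = S.pt v → (x ∈ T ↔ ∀ i, MvPolynomial.eval v (P i) = 0)) : Zc c T := by
  obtain ⟨c₁, p, F, h2, h3⟩ := h.ext
  refine Zc.pre (c' := c₁) (.of_loc fun y => ?_) h2.alg.symm
  obtain ⟨g, hg⟩ := S.lb.cover (F y)
  refine ⟨ι, inferInstance, fun i z => MvPolynomial.eval (S.x g (F z)) (P i), fun i =>
    (AnV.pi fun a => h3.hol.hol (S.xhol hg a)).cmp (hol_self.1 ((Reg.eval reg_crd (P i)).hol _)), ?_⟩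
  filter_upwards [h3.hol.cont.continuousAt.eventually ((S.lb.isOpen g).eventually_mem hg)]
    with z hz x hx
  exact e x _ (S.xnz g _ hz) (by rw [S.pt_x' hz, ← hx, h3.eq]; rfl)

end Vale.Agent.P275RG
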