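import Vale.Agent.P275RG.Aff
import Vale.Agent.P275RG.Prod
import Vale.Agent.P275ST.Stmt

/-!
# P275: the compactifications of the statement are good compactifications
-/

open scoped Manifold ContDiff Topology
open Set Filter Function Topology
open Vale.Agent.P272.K (Cm Chart At)
open Vale.Agent.P277Z (Hol hol_const at_chart)
open Vale.Agent.P277Z.Slc (Snc LEq Ind)
open Vale.Agent.P281Z
open Vale.Agent.P275ST (XB IsReg Cpt dimR)

noncomputable section

namespace Vale.Agent.P275RG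

theorem prj_kah {n : ℕ} {Y : Mf n} (h : Y.Prj) : Y.Kah :=
  let ⟨_, a, b⟩ := h
  b.kah a P277Z.Pos.kah

/-- linear combinations of the components of an immersion are coordinates -/
theorem ex_lin {n N : ℕ} {U : Type} [TopologicalSpace U] [ChartedSpace (Cm n) U]
    [IsManifold 𝓘(ℂ, Cm n) ω U] {q : U → Cm N} {x : U} (h : HolA n N q x) (h' : Imm n N q x) :
    ∃ L : Cm N →L[ℂ] Cm n, Ind n (fun i y => L (q y) i) x := by
  obtain ⟨L, hL⟩ := LinearMap.exists_leftInverse_of_injective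
    (df q (chartAt (Cm n) x) (chartAt (Cm N) (q x)) x).toLinearMap
    (LinearMap.ker_eq_bot.2 (h' _ _ (at_chart x) (at_chart _)))
  have h1 : HolA N n L.toContinuousLinearMap (q x) :=
    holA_iff.2 fun i => hol_self.2 (analyticAt_pi_iff.1 (L.toContinuousLinearMap.analyticAt _) i)
  refine ⟨L.toContinuousLinearMap, (sbm_iff_ind (h1.cmp h) (at_chart _)).1
    (.of_chart (h1.cmp h) (at_chart x) (at_chart _) fun v => ⟨v, ?_⟩)⟩
  rw [df_comp h1 h (at_chart x) (at_chart _) (at_chart _)]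
  exact (DFunLike.congr_fun L.toContinuousLinearMap.fderiv _).trans (DFunLike.congr_fun hL v)

variable {g n N : ℕ} {d : ℤ} [ChartedSpace (Cm (2 * dimR g n)) (XB g n d)]
  [IsManifold 𝓘(ℂ, Cm (2 * dimR g n)) ω (XB g n d)] {q : XB g n d → Cm N}

omit [ChartedSpace (Cm (2 * dimR g n)) (XB g n d)]
  [IsManifold 𝓘(ℂ, Cm (2 * dimR g n)) ω (XB g n d)] in
theorem isReg_lin (hq : ∀ i, IsReg fun x => q x i) (L : Cm N →L[ℂ] ℂ) : IsReg fun x => L (q x) := by
  choose P hP using hq
  refine ⟨∑ i, MvPolynomial.C (L (Pi.single i 1)) * P i, fun ρ => ?_⟩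
  simp only [map_sum, map_mul, MvPolynomial.eval_C, ← hP]
  conv_lhs => rw [pi_eq_sum_univ' (q ρ.pt), map_sum]
  simp only [map_smul, smul_eq_mul, mul_comm]

/-- a projective good compactification is a compactification in the sense of the statement -/
theorem cpt_of_cp (c : Cp (2 * dimR g n) (XB g n d)) (hp : c.Y.Prj)
    (hr : ∀ t, IsReg t → Reg c t) (hq : ∀ i, IsReg fun x => q x i)
    (hi : ∀ x, Imm (2 * dimR g n) N q x) : Nonempty (Cpt g n d) := by
  refine ⟨⟨c.Y, hp, c.r, c.G, c.snc, c.j, c.opn, c.emb.rng, snc_dense_off c.snc,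
    fun t ht y ζ hζ => (hr t ht).pole (.prod _ fun l _ => (hζ l).hol)
      ((leq_off hζ).mono fun _ e => e.2), fun x => ?_⟩⟩
  have h1 := holA_iff.2 fun i => (hr _ (hq i)).hol x
  obtain ⟨L, hL⟩ := ex_lin h1 (hi x)
  have h2 : ∀ i x', extend c.j (fun y => L (q y) i) 0 (c.j x') = L (q x') i := fun i =>
    c.inj.extend_apply _ _
  refine ⟨fun i y => L (q y) i, fun i => extend c.j (fun y => L (q y) i) 0, fun i =>
    ⟨isReg_lin hq ((ContinuousLinearMap.proj i).comp L), h2 i⟩,
    ind_of_comp (c.hol.at x) (fun i => c.hol_of ?_) ?_⟩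
  · simpa only [h2] using hL.1 i
  · simpa only [h2] using hL

theorem cpt_emb (K : Cpt g n d) (hr : ∀ t : XB g n d → ℂ, IsReg t → ∀ x, Hol (2 * dimR g n) t x)
    (hq : ∀ i, IsReg fun x => q x i) (hi : ∀ x, Imm (2 * dimR g n) N q x) :
    Emb (2 * dimR g n) (2 * dimR g n) K.j (off K.G) := by
  have h1 : HolM (2 * dimR g n) (2 * dimR g n) K.j := fun x => by
    obtain ⟨t, u, h1, h2⟩ := K.crd x
    have h3 : HolA _ _ (fun y i => u i y : K.Y.X → Cm _) (K.j x) := holA_iff.2 h2.1
    exact (imm_iff_sbm.2 ((sbm_iff_ind h3 (at_chart _)).2 h2)).lift h3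
      K.emb.continuous.continuousAt
      (holA_iff.2 fun i => by simpa only [(h1 i).2] using hr _ (h1 i).1 x)
  refine ⟨h1, K.emb.injective, fun x => ?_, K.rng⟩
  obtain ⟨ζ, hζ, -⟩ := K.snc (K.j x)
  choose k u h2 h3 using fun i => K.mer _ (hq i) _ ζ hζ
  have h4 : Hol _ (fun y => ∏ l, ζ l y) (K.j x) := .prod _ fun l _ => (hζ l).hol
  have h5 : ∏ l, ζ l (K.j x) ≠ 0 := fun e =>
    (leq_off hζ).self_of_nhds.1 e (K.rng ▸ mem_range_self x)
  refine .of_comp (g := fun y => (fun i => u i y / (∏ l, ζ l y) ^ k i : Cm N))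
    (holA_iff.2 fun i => (h2 i).div (h4.pow _) (pow_ne_zero _ h5)) (h1.at x) ((hi x).cng ?_)
  filter_upwards [h1.cont.continuousAt.eventually ((eventually_all.2 h3).and (h4.ne_near h5))]
    with z hz
  exact funext fun i => by rw [hz.1 i z rfl, mul_div_cancel_right₀ _ (pow_ne_zero _ hz.2)]

/-- the good compactification given by a compactification of the statement -/
def cptCp (K : Cpt g n d) (h : Emb (2 * dimR g n) (2 * dimR g n) K.j (off K.G)) :
    Cp (2 * dimR g n) (XB g n d) := .ofSnc K.Y (prj_kah K.prj) K.snc h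

theorem cptCp_reg (K : Cpt g n d) (h : Emb (2 * dimR g n) (2 * dimR g n) K.j (off K.G))
    {t : XB g n d → ℂ} (ht : IsReg t) (hr : ∀ x, Hol (2 * dimR g n) t x) : Reg (cptCp K h) t :=
  .of_pole hr fun y => by
    obtain ⟨ζ, hζ, -⟩ := K.snc y
    obtain ⟨k, u, h1, h2⟩ := K.mer t ht y ζ hζ
    refine ⟨fun z => ∏ l, ζ l z, u, k, .prod _ fun l _ => (hζ l).hol, h1, ?_⟩
    filter_upwards [h2, leq_off hζ] with z k1 k2 x hx
    exact ⟨fun e => k2.1 e (K.rng ▸ ⟨x, hx⟩), k1 x hx⟩

/-- **CPT**: if `X^B` is embedded by regular functions which are regular for `c`, then every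
compactification of the statement is a good compactification which is equivalent to `c` -/
theorem cp_of_cpt (c : Cp (2 * dimR g n) (XB g n d)) (hr : ∀ t, IsReg t → Reg c t)
    (hq : ∀ i, IsReg fun x => q x i) (hi : ∀ x, Imm (2 * dimR g n) N q x) (he : IsInducing q)
    (K : Cpt g n d) : ∃ h : Emb (2 * dimR g n) (2 * dimR g n) K.j (off K.G),
      Alg (cptCp K h) c (fun x => x) ∧ Alg c (cptCp K h) fun x => x :=
  have h := cpt_emb K (fun t ht => (hr t ht).hol) hq hi
  have h1 : Alg (cptCp K h) c fun x => x := alg_of_reg (fun i => hr _ (hq i)) he hi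
    fun i => cptCp_reg K h (hq i) (hr _ (hq i)).hol
  ⟨h, h1, h1.symm⟩

end Vale.Agent.P275RG
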