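import Vale.Agent.P275RG.Reg
import Vale.Agent.P281Z.Pb.Api
import Vale.Agent.P281Z.Pb.Ps

/-!
# P275, good compactifications: the affine space and its subvarieties
-/

open scoped Manifold ContDiff Topology
open Set Filter Function Topology
open Vale.Agent.P272.K (Cm Chart At)
open Vale.Agent.P277Z (Hol hol_const at_chart)
open Vale.Agent.P277Z.Slc (Snc LEq dd)
open Vale.Agent.P281Z

set_option linter.unusedSectionVars false

noncomputable section

namespace Vale.Agent.P275RG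

variable {n m N : ℕ} {U V : Type} [TopologicalSpace U] [ChartedSpace (Cm n) U]
  [IsManifold 𝓘(ℂ, Cm n) ω U] [TopologicalSpace V] [ChartedSpace (Cm m) V]
  [IsManifold 𝓘(ℂ, Cm m) ω V] {c : Cp n U} {c' : Cp m V}

theorem hol_crd (i : Fin N) (v : Cm N) : Hol N (fun v : Cm N => v i) v := hol_chart (at_chart v) i

theorem holA_iff {t : U → Cm N} {x : U} : HolA n N t x ↔ ∀ i, Hol n (fun x => t x i) x :=
  ⟨fun h i => h.hol (hol_crd i _), fun h => .of_hol (AnV.pi h).cont (at_chart _) h⟩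

theorem hol_self {a : Cm N → ℂ} {v : Cm N} : Hol N a v ↔ AnalyticAt ℂ a v :=
  ⟨fun h => h _ (at_chart v), fun h => (AnV.pi fun i => hol_crd i v).cmp h⟩

theorem imm_self {t : Cm n → Cm N} {v : Cm n} (h : AnalyticAt ℂ t v)
    (h' : Injective (fderiv ℂ t v)) : Imm n N t v :=
  .of_chart (holA_iff.2 fun i => hol_self.2 (analyticAt_pi_iff.1 h i)) (at_chart v) (at_chart _) h'

theorem hol_cons (v : Cm N) (a : Fin (N + 1)) :
    Hol N (fun v : Cm N => (Fin.cons 1 v : Cm (N + 1)) a) v :=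
  Fin.cases (hol_const 1 v) (fun i => hol_crd i v) a

theorem cons_ne (v : Cm N) : (Fin.cons 1 v : Cm (N + 1)) ≠ 0 := ne_iff.2 ⟨0, one_ne_zero⟩

/-- the hyperplane at infinity -/
def inf (S : PS N) : Set S.P.X := {p | ∀ v, S.pt (Fin.cons 1 v) ≠ p}

theorem pt_cons (S : PS N) {p : S.P.X} {h : S.H.ι} (hp : p ∈ S.H.U h) {v : Cm N}
    (k : ∀ i, S.x h p i.succ = v i * S.x h p 0) : S.pt (Fin.cons 1 v) = p := by
  rw [← S.pt_x' hp, eq_comm]
  exact (S.pt_eq_iff (S.xnz h p hp) (cons_ne v)).2 ⟨S.x h p 0, funext fun a =>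
    Fin.cases (by simp) (fun i => by simp [k i, mul_comm]) a⟩

theorem x_cons (S : PS N) {h : S.H.ι} {v : Cm N} (hp : S.pt (Fin.cons 1 v) ∈ S.H.U h) :
    S.x h (S.pt (Fin.cons 1 v)) 0 ≠ 0 ∧
      ∀ i, S.x h (S.pt (Fin.cons 1 v)) i.succ = v i * S.x h (S.pt (Fin.cons 1 v)) 0 := by
  obtain ⟨a, h1, h2⟩ := S.x_pt' (cons_ne v) hp
  rw [h2]
  exact ⟨by simpa using h1, fun i => by simp [mul_comm]⟩

theorem an_inf (S : PS N) : An N (inf S) := fun p =>
  let ⟨h, hp⟩ := S.lb.cover p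
  ⟨1, fun _ q => S.x h q 0, fun _ => S.xhol hp 0, ((S.lb.isOpen h).eventually_mem hp).mono
    fun q hq => ⟨fun k _ => of_not_not fun e => k (fun i => S.x h q i.succ / S.x h q 0)
      (pt_cons S hq fun _ => (div_mul_cancel₀ _ e).symm), fun k v e => by
        subst e
        exact (x_cons S hq).1 (k 0)⟩⟩

theorem emb_cons (S : PS N) : Emb N N (fun v : Cm N => S.pt (Fin.cons 1 v)) (univ \ inf S) := by
  refine ⟨fun v => S.holA (hol_cons v) (cons_ne v), fun v w e => funext fun i => ?_, fun v =>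
    (S.imm_iff (hol_cons v) (l := 0) one_ne_zero (at_chart v)).2 fun ξ hξ => ?_, ?_⟩
  · simpa using (S.pt_eq_iff' (cons_ne v) (cons_ne w)).1 e i.succ 0
  · obtain ⟨i, hi⟩ := ne_iff.1 hξ
    refine ⟨i.succ, ?_⟩
    have h1 : HasFDerivAt (fun v : Cm N => v i) (ContinuousLinearMap.proj (R := ℂ) i) v :=
      hasFDerivAt_apply i v
    simp only [Fin.cons_succ, Fin.cons_zero, div_one]
    exact fun e => hi ((DFunLike.congr_fun h1.fderiv ξ).symm.trans e)
  · ext p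
    simp [inf]

theorem ex_cA (N : ℕ) : ∃ (c : Cp N (Cm N)) (S : PS N) (π : c.Y.X → S.P.X), c.Y.Prj ∧
    HolM N N π ∧ (∀ v, π (c.j v) = S.pt (Fin.cons 1 v)) ∧
      ∀ y v, π y = S.pt (Fin.cons 1 v) → y = c.j v := by
  obtain ⟨S⟩ := Pb.psex N
  obtain ⟨c, π, h1, h2, h3, h4⟩ := sub S.P (S.pos.kah S.lb P277Z.Pos.kah) an_univ (an_inf S)
    (emb_cons S) (emb_open (emb_cons S)).isInducing
  refine ⟨c, S, π, h4 S.prj, h1, h2, fun y v e => ?_⟩
  obtain ⟨w, rfl⟩ := c.ex ((h3 y).1 fun k => k v e.symm)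
  rw [(emb_cons S).inj ((h2 w).symm.trans e)]

/-- a projective compactification of the affine space -/
def cA (N : ℕ) : Cp N (Cm N) := (ex_cA N).choose

theorem cA_spec (N : ℕ) : ∃ (S : PS N) (π : (cA N).Y.X → S.P.X), (cA N).Y.Prj ∧
    HolM N N π ∧ (∀ v, π ((cA N).j v) = S.pt (Fin.cons 1 v)) ∧
      ∀ y v, π y = S.pt (Fin.cons 1 v) → y = (cA N).j v := (ex_cA N).choose_spec

theorem cA_prj (N : ℕ) : (cA N).Y.Prj :=
  let ⟨_, _, h, _⟩ := cA_spec N
  h

theorem reg_crd (i : Fin N) : Reg (cA N) fun v => v i := by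
  obtain ⟨S, π, -, h1, h2, -⟩ := cA_spec N
  refine ⟨hol_crd i, fun y => ?_⟩
  obtain ⟨h, hp⟩ := S.lb.cover (π y)
  refine ⟨fun z => S.x h (π z) i.succ, fun z => S.x h (π z) 0, h1.hol (S.xhol hp _),
    h1.hol (S.xhol hp _), ?_⟩
  filter_upwards [h1.cont.continuousAt.eventually ((S.lb.isOpen h).eventually_mem hp)]
    with z hz v hv
  have e : π z = S.pt (Fin.cons 1 v) := hv ▸ h2 v
  rw [e] at hz ⊢
  exact ⟨(x_cons S hz).1, ((x_cons S hz).2 i).symm⟩

theorem alg_cA {t : U → Cm N} (ht : ∀ x i, Hol n (fun x => t x i) x)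
    (h : ∀ y, ∃ (κ : Type) (_ : Finite κ) (a b : κ → Fin N → c.Y.X → ℂ),
      (∀ k i, Hol n (a k i) y ∧ Hol n (b k i) y) ∧ ∀ᶠ z in 𝓝 y, ∀ x, c.j x = z →
        ∀ i, (∀ k, t x i * b k i z = a k i z) ∧ ∃ k, b k i z ≠ 0) : Alg c (cA N) t := by
  obtain ⟨S, π, -, h1, h2, h3⟩ := cA_spec N
  refine alg_of_an (A := {w | ∀ x, c.j x = c.Y.p1 _ w → (c.Y.p2 _ w) = (cA N).j (t x)})
    (fun x => holA_iff.2 (ht x)) (.of_fin fun w => ?_)
    fun x y => ⟨fun e => e x rfl, fun e x' e' => c.inj e' ▸ e⟩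
  obtain ⟨κ, _, a, b, k1, k2⟩ := h (c.Y.p1 _ w)
  obtain ⟨τ, k3, k4⟩ := c.eqn (c.Y.p1 _ w)
  obtain ⟨g, hp⟩ := S.lb.cover (π (c.Y.p2 _ w))
  have h4 : HolM _ N fun w => π (c.Y.p2 (cA N).Y w) := h1.comp hol_p2
  refine ⟨κ × Fin N, inferInstance, fun q w => τ (c.Y.p1 _ w) * (b q.1 q.2 (c.Y.p1 _ w) *
    S.x g (π (c.Y.p2 _ w)) q.2.succ - a q.1 q.2 (c.Y.p1 _ w) * S.x g (π (c.Y.p2 _ w)) 0),
    fun q => (hol_p1.hol k3).mul (((hol_p1.hol (k1 _ _).2).mul (h4.hol (S.xhol hp _))).sub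
      ((hol_p1.hol (k1 _ _).1).mul (h4.hol (S.xhol hp _)))), ?_⟩
  filter_upwards [cont_p1.continuousAt.eventually (k2.and k4),
    h4.cont.continuousAt.eventually ((S.lb.isOpen g).eventually_mem hp)] with z ⟨l1, l2⟩ l3
  by_cases hz : c.Y.p1 _ z ∈ off c.G
  · obtain ⟨x, hx⟩ := c.ex hz
    simp only [mul_eq_zero, or_iff_right fun e => l2.1 e hz, ← (l1 x hx _).1]
    refine ⟨fun e q => ?_, fun e x' e' => ?_⟩
    · have l4 := congrArg π (e x hx)
      rw [h2] at l4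
      rw [l4] at l3 ⊢
      rw [(x_cons S l3).2]
      ring
    · obtain rfl := c.inj (e'.trans hx.symm)
      refine h3 _ _ (pt_cons S l3 fun i => ?_).symm
      obtain ⟨k, hk⟩ := (l1 x' hx i).2
      exact mul_left_cancel₀ hk (by linear_combination e (k, i))
  · exact iff_of_true (fun x hx => absurd (hx ▸ c.mem x) hz) fun i => by rw [l2.2 hz, zero_mul]

/-- algebraic maps to the affine space -/
theorem alg_iff_reg {t : U → Cm N} : Alg c (cA N) t ↔ ∀ i, Reg c fun x => t x i := by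
  refine ⟨fun h i => (reg_crd i).comp h, fun h => alg_cA (fun x i => (h i).hol x) fun y => ?_⟩
  choose a b h1 h2 h3 using fun i => (h i).mer y
  exact ⟨Unit, inferInstance, fun _ => a, fun _ => b, fun _ i => ⟨h1 i, h2 i⟩,
    (eventually_all.2 h3).mono fun z e x hx i => ⟨fun _ => (e i x hx).2, (), (e i x hx).1⟩⟩

/-- locally a quotient of regular functions -/
theorem Reg.of_loc {κ : Type} [Finite κ] {P Q : κ → U → ℂ} {t : U → ℂ} (hP : ∀ k, Reg c (P k))
    (hQ : ∀ k, Reg c (Q k)) (h0 : ∀ x, ∃ k, Q k x ≠ 0)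
    (h : ∀ k x, Q k x ≠ 0 → t x = P k x / Q k x) : Reg c t := by
  refine (alg_iff_reg (t := fun x (_ : Fin 1) => t x)).1 (alg_cA (fun x _ => ?_) fun y => ?_) 0
  · obtain ⟨k, hk⟩ := h0 x
    exact (((hP k).hol x).div ((hQ k).hol x) hk).congr
      ((((hQ k).hol x).ne_near hk).mono fun z e => (h k z e).symm)
  choose a b h1 h2 h3 using fun k => (hP k).mer y
  choose a' b' k1 k2 k3 using fun k => (hQ k).mer y
  refine ⟨κ, inferInstance, fun k _ z => a k z * a' k z * b' k z,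
    fun k _ z => a' k z * a' k z * b k z, fun k _ =>
      ⟨((h1 k).mul (k1 k)).mul (k2 k), ((k1 k).mul (k1 k)).mul (h2 k)⟩, ?_⟩
  filter_upwards [eventually_all.2 h3, eventually_all.2 k3] with z e e' x hx _
  refine ⟨fun k => ?_, (h0 x).imp fun k hk => ?_⟩
  · rw [← (e k x hx).2, ← (e' k x hx).2]
    by_cases hk : Q k x = 0
    · simp [hk]
    · rw [h k x hk]
      field_simp
  · rw [← (e' k x hx).2]
    exact mul_ne_zero (mul_self_ne_zero.2 (mul_ne_zero hk (e' k x hx).1)) (e k x hx).1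

/-- locally a quotient of polynomials in regular functions -/
theorem Reg.of_rat {σ : Type} [Finite σ] {q : U → σ → ℂ} (hq : ∀ i, Reg c fun x => q x i)
    {t : U → ℂ} (h : ∀ y, ∃ P Q : MvPolynomial σ ℂ, MvPolynomial.eval (q y) Q ≠ 0 ∧ ∀ x,
      MvPolynomial.eval (q x) Q ≠ 0 → t x = MvPolynomial.eval (q x) P / MvPolynomial.eval (q x) Q) :
    Reg c t := by
  choose P Q h1 h2 using h
  obtain ⟨T, h3, h4⟩ := (Submodule.fg_span_iff_fg_span_finset_subset (range Q)).1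
    (IsNoetherian.noetherian (Ideal.span (range Q)))
  choose y hy using fun k : T => h3 k.2
  refine .of_loc (κ := T) (fun k => .eval hq (P (y k))) (fun k => .eval hq (Q (y k)))
    (fun x => not_forall_not.1 fun e => h1 x ?_) fun k => h2 (y k)
  have h5 : Ideal.span (T : Set (MvPolynomial σ ℂ)) ≤ RingHom.ker (MvPolynomial.eval (q x)) :=
    Ideal.span_le.2 fun a ha =>
      (congrArg (MvPolynomial.eval (q x)) (hy ⟨a, ha⟩)).symm.trans (not_not.1 (e ⟨a, ha⟩))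
  exact h5 (h4.le (Submodule.subset_span (mem_range_self x)))

/-- a map into a manifold which is embedded by regular functions -/
theorem alg_of_reg {q : V → Cm N} (hq : ∀ i, Reg c' fun v => q v i) (h1 : IsInducing q)
    (h2 : ∀ v, Imm m N q v) {f : U → V} (h : ∀ i, Reg c fun x => q (f x) i) : Alg c c' f :=
  (alg_iff_reg.2 hq).lift h1 h2 (alg_iff_reg.2 h)

theorem zc_cA (S : Set (MvPolynomial (Fin N) ℂ)) :
    Zc (cA N) {v | ∀ P ∈ S, MvPolynomial.eval v P = 0} := zc_poly reg_crd S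

/-- **Quasi-affine varieties** -/
theorem aff {q : U → Cm N} {A B : Set (Cm N)} (hA : Zc (cA N) A) (hB : Zc (cA N) B)
    (hq : Emb n N q (A \ B)) (he : IsInducing q) :
    ∃ c : Cp n U, c.Y.Prj ∧ ∀ i, Reg c fun x => q x i :=
  let ⟨c, _, h1, h2, _⟩ := (cA N).sub hA hB hq he
  ⟨c, h2 (cA_prj N), alg_iff_reg.1 h1.alg⟩

/-- the complex structure of a submanifold -/
theorem sub_cs {S : Set V} (h : SubM m n S) : ∃ (_ : ChartedSpace (Cm n) S)
    (_ : IsManifold 𝓘(ℂ, Cm n) ω S), Emb n m (Subtype.val : S → V) S := by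
  choose e h1 h2 using h.chart
  let A : Atl n m (Subtype.val : S → V) := ⟨e, h1, h2, continuous_subtype_val⟩
  let := A.cs
  have := A.isManifold
  exact ⟨A.cs, A.isManifold, fun z => HolA.of_an A.cont.continuousAt (at_chart z) (at_chart _)
    (h2 z _ ((e z).map_source (h1 z)) _ (((e z).left_inv (h1 z)).symm ▸ at_chart _)).1,
    Subtype.val_injective, fun z e e' he he' =>
      ((he.1 : ImC m _ e) _ he.mem_target e' (he.left_inv.symm ▸ he')).2, Subtype.range_coe⟩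

theorem subM_open {S : Set V} (h : IsOpen S) : SubM m m S := fun _ hx =>
  ⟨0, Fin.elim0, rfl, ⟨fun i => i.elim0, fun _ _ => linearIndependent_empty_type⟩,
    (h.eventually_mem hx).mono fun _ k => iff_of_true k fun i => i.elim0⟩

end Vale.Agent.P275RG
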