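import Vale.Agent.P281Z.Mf.Prod

/-!
# P275, good compactifications and algebraic maps (definitions)
-/

open scoped Manifold ContDiff Topology
open Set Filter
open Vale.Agent.P272.K (Cm)
open Vale.Agent.P277Z (Hol)
open Vale.Agent.P277Z.Slc (Snc)
open Vale.Agent.P281Z

noncomputable section

namespace Vale.Agent.P275RG

/-- a compact Kähler manifold with a divisor with simple normal crossings -/
structure Pr (n : ℕ) : Type 1 where
  Y : Mf n
  kah : Y.Kah
  r : ℕ
  G : Fin r → Set Y.X
  snc : Snc n G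
  conn : ∀ l, IsConnected (G l)

/-- a good compactification of the complex manifold `U` -/
structure Cp (n : ℕ) (U : Type) [TopologicalSpace U] [ChartedSpace (Cm n) U] extends Pr n where
  j : U → Y.X
  emb : Emb n n j (off G)

variable {n m : ℕ} {U V : Type} [TopologicalSpace U] [ChartedSpace (Cm n) U] [TopologicalSpace V]
  [ChartedSpace (Cm m) V]

/-- the graph of `f` -/
def gr (c : Cp n U) (c' : Cp m V) (f : U → V) : Set (c.Y.prod c'.Y).X :=
  range fun x => c.Y.pair c'.Y (c.j x) (c'.j (f x))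

/-- `f` is holomorphic, and meromorphic along the boundary -/
structure Alg (c : Cp n U) (c' : Cp m V) (f : U → V) : Prop where
  hol : HolM n m f
  an : An (n + m) (closure (gr c c' f))

/-- `F` is a holomorphic extension of `f` -/
structure Ext (c : Cp n U) (c' : Cp m V) (f : U → V) (F : c.Y.X → c'.Y.X) : Prop where
  hol : HolM n m F
  eq : ∀ x, F (c.j x) = c'.j (f x)

/-- Zariski closed subsets -/
def Zc (c : Cp n U) (Z : Set U) : Prop := ∃ A, An n A ∧ c.j ⁻¹' A = Z

/-- regular functions -/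
structure Reg (c : Cp n U) (t : U → ℂ) : Prop where
  hol : ∀ x, Hol n t x
  mer : ∀ y, ∃ a b : c.Y.X → ℂ, Hol n a y ∧ Hol n b y ∧
    ∀ᶠ z in 𝓝 y, ∀ x, c.j x = z → b z ≠ 0 ∧ t x * b z = a z

/-- the pair with the components `ι l` only -/
def Pr.sub (P : Pr n) {r : ℕ} (ι : Fin r ↪ Fin P.r) : Pr n where
  Y := P.Y
  kah := P.kah
  r := r
  G l := P.G (ι l)
  snc x :=
    let ⟨ζ, h1, h2⟩ := P.snc x
    ⟨fun l => ζ (ι l), fun l => h1 (ι l), h2.comp (fun l : {l // x ∈ P.G (ι l)} => ⟨ι l, l.2⟩)
      fun _ _ e => Subtype.ext (ι.injective (congrArg Subtype.val e))⟩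
  conn l := P.conn (ι l)

end Vale.Agent.P275RG
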