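import Vale.Agent.P275RG.Ext
import Vale.Agent.P277Z.Hl.Desc

/-!
# P275, good compactifications: regular functions, Zariski closed sets, subvarieties
-/

open scoped Manifold ContDiff Topology
open Set Filter Function Topology
open Vale.Agent.P272.K (Cm)
open Vale.Agent.P277Z (Hol hol_const)
open Vale.Agent.P277Z.Slc (Snc LEq)
open Vale.Agent.P281Z

set_option linter.unusedSectionVars false

noncomputable section

namespace Vale.Agent.P275RG

variable {n m k : ℕ} {U V W : Type} [TopologicalSpace U] [ChartedSpace (Cm n) U]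
  [IsManifold 𝓘(ℂ, Cm n) ω U] [TopologicalSpace V] [ChartedSpace (Cm m) V]
  [IsManifold 𝓘(ℂ, Cm m) ω V] [TopologicalSpace W] [ChartedSpace (Cm k) W]
  [IsManifold 𝓘(ℂ, Cm k) ω W] {c c₁ : Cp n U} {c' : Cp m V} {c'' : Cp k W} {f : U → V}
  {F : c.Y.X → c'.Y.X} {s t : U → ℂ}

theorem leq_off {X κ : Type} [TopologicalSpace X] [ChartedSpace (Cm n) X] [Fintype κ]
    {G : κ → Set X} {y : X} {ζ : κ → X → ℂ} (h : ∀ l, LEq n (G l) y (ζ l)) :
    ∀ᶠ z in 𝓝 y, ∏ l, ζ l z = 0 ↔ z ∉ off G :=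
  (eventually_all.2 fun l => (h l).1).mono fun z hz => by
    simp only [Finset.prod_eq_zero_iff, Finset.mem_univ, true_and, hz, not_off]

/-- a local equation of the boundary -/
theorem Pr.eqn (P : Pr n) (y : P.Y.X) : ∃ τ, Hol n τ y ∧ ∀ᶠ z in 𝓝 y, τ z = 0 ↔ z ∉ off P.G :=
  let ⟨ζ, h, _⟩ := P.snc y
  ⟨fun z => ∏ l, ζ l z, Hol.prod _ fun l _ => (h l).hol, leq_off h⟩

namespace Reg

theorem pole (h : Reg c t) {y : c.Y.X} {τ : c.Y.X → ℂ} (hτ : Hol n τ y)
    (h0 : ∀ᶠ z in 𝓝 y, z ∉ off c.G → τ z = 0) :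
    ∃ (k : ℕ) (u : c.Y.X → ℂ), Hol n u y ∧ ∀ᶠ z in 𝓝 y, ∀ x, c.j x = z → u z = t x * τ z ^ k := by
  obtain ⟨a, b, h1, h2, h3⟩ := h.mer y
  obtain ⟨ξ, h4, -⟩ := c.snc y
  obtain ⟨e, u, u1, u2, u3⟩ := Nt.Hp.mon c.snc h4 h2
    (h3.mono fun z hz k => (c.ex k).elim fun x hx => (hz x hx).1)
  choose v v1 v2 using fun l => Nt.Hp.div (h4 l) hτ (h0.mono fun z hz k => hz fun e => e l k)
  refine ⟨∑ l, e l, fun z => a z / u z * ∏ l, v l z ^ e l,
    Hol.mul (h1.div u1 u2) (Hol.prod _ fun l _ => Hol.pow (v1 l) _), ?_⟩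
  filter_upwards [h3, u3, eventually_all.2 v2, u1.ne_near u2] with z k1 k2 k3 k4 x hx
  rw [← (k1 x hx).2, k2, ← Finset.prod_pow_eq_pow_sum,
    Finset.prod_congr rfl fun l _ => congrArg (· ^ e l) (k3 l)]
  simp only [mul_pow, Finset.prod_mul_distrib]
  field_simp

theorem of_pole (h : ∀ x, Hol n t x) (h' : ∀ y, ∃ (τ u : c.Y.X → ℂ) (k : ℕ), Hol n τ y ∧
    Hol n u y ∧ ∀ᶠ z in 𝓝 y, ∀ x, c.j x = z → τ z ≠ 0 ∧ u z = t x * τ z ^ k) : Reg c t :=
  ⟨h, fun y =>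
    let ⟨τ, u, k, h1, h2, h3⟩ := h' y
    ⟨u, fun z => τ z ^ k, h2, Hol.pow h1 k, h3.mono fun _ a x hx =>
      ⟨pow_ne_zero k (a x hx).1, (a x hx).2.symm⟩⟩⟩

theorem of_hol {a : c.Y.X → ℂ} (h : ∀ y, Hol n a y) : Reg c fun x => a (c.j x) :=
  ⟨fun _ => c.hol.hol (h _), fun y => ⟨a, fun _ => 1, h y, hol_const 1 y,
    .of_forall fun _ _ hx => ⟨one_ne_zero, by rw [mul_one, hx]⟩⟩⟩

theorem const (c : Cp n U) (a : ℂ) : Reg c fun _ => a := of_hol (a := fun _ => a) (hol_const a)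

theorem add (hs : Reg c s) (ht : Reg c t) : Reg c fun x => s x + t x :=
  ⟨fun x => (hs.hol x).add (ht.hol x), fun y => by
    obtain ⟨a, b, h1, h2, h3⟩ := hs.mer y
    obtain ⟨a', b', k1, k2, k3⟩ := ht.mer y
    refine ⟨fun z => a z * b' z + a' z * b z, fun z => b z * b' z,
      (Hol.mul h1 k2).add (Hol.mul k1 h2), Hol.mul h2 k2, ?_⟩
    filter_upwards [h3, k3] with z e1 e2 x hx
    exact ⟨mul_ne_zero (e1 x hx).1 (e2 x hx).1, by rw [← (e1 x hx).2, ← (e2 x hx).2]; ring⟩⟩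

theorem mul (hs : Reg c s) (ht : Reg c t) : Reg c fun x => s x * t x :=
  ⟨fun x => Hol.mul (hs.hol x) (ht.hol x), fun y => by
    obtain ⟨a, b, h1, h2, h3⟩ := hs.mer y
    obtain ⟨a', b', k1, k2, k3⟩ := ht.mer y
    refine ⟨fun z => a z * a' z, fun z => b z * b' z, Hol.mul h1 k1, Hol.mul h2 k2, ?_⟩
    filter_upwards [h3, k3] with z e1 e2 x hx
    exact ⟨mul_ne_zero (e1 x hx).1 (e2 x hx).1, by rw [← (e1 x hx).2, ← (e2 x hx).2]; ring⟩⟩

theorem inv (ht : Reg c t) (h0 : ∀ x, t x ≠ 0) : Reg c fun x => (t x)⁻¹ :=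
  ⟨fun x => by simpa only [one_div] using (hol_const 1 x).div (ht.hol x) (h0 x), fun y => by
    obtain ⟨a, b, h1, h2, h3⟩ := ht.mer y
    exact ⟨b, a, h2, h1, h3.mono fun z e x hx => by
      rw [← (e x hx).2]
      exact ⟨mul_ne_zero (h0 x) (e x hx).1, inv_mul_cancel_left₀ (h0 x) _⟩⟩⟩

theorem neg (ht : Reg c t) : Reg c fun x => -t x := by
  simpa only [neg_one_mul] using (const c (-1)).mul ht

theorem sub (hs : Reg c s) (ht : Reg c t) : Reg c fun x => s x - t x := by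
  simpa only [sub_eq_add_neg] using hs.add ht.neg

theorem div (hs : Reg c s) (ht : Reg c t) (h0 : ∀ x, t x ≠ 0) : Reg c fun x => s x / t x := by
  simpa only [div_eq_mul_inv] using hs.mul (ht.inv h0)

theorem sum {ι : Type} (S : Finset ι) {t : ι → U → ℂ} (h : ∀ i ∈ S, Reg c (t i)) :
    Reg c fun x => ∑ i ∈ S, t i x := by
  classical
  induction S using Finset.induction_on with
  | empty => exact const c 0
  | insert a S ha ih =>
    simpa only [Finset.sum_insert ha] using (h a (Finset.mem_insert_self _ _)).add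
      (ih fun i hi => h i (Finset.mem_insert_of_mem hi))

theorem prod {ι : Type} (S : Finset ι) {t : ι → U → ℂ} (h : ∀ i ∈ S, Reg c (t i)) :
    Reg c fun x => ∏ i ∈ S, t i x := by
  classical
  induction S using Finset.induction_on with
  | empty => exact const c 1
  | insert a S ha ih =>
    simpa only [Finset.prod_insert ha] using (h a (Finset.mem_insert_self _ _)).mul
      (ih fun i hi => h i (Finset.mem_insert_of_mem hi))

theorem pow (ht : Reg c t) (k : ℕ) : Reg c fun x => t x ^ k := by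
  simpa using prod (Finset.range k) fun _ _ => ht

theorem eval {σ : Type} {t : U → σ → ℂ} (h : ∀ i, Reg c fun x => t x i)
    (P : MvPolynomial σ ℂ) : Reg c fun x => MvPolynomial.eval (t x) P := by
  induction P using MvPolynomial.induction_on with
  | C a => simpa only [MvPolynomial.eval_C] using const c a
  | add P Q h1 h2 => simpa only [map_add] using h1.add h2
  | mul_X P i h1 => simpa only [map_mul, MvPolynomial.eval_X] using h1.mul (h i)

theorem ext {t : V → ℂ} (h : Reg c' t) (hF : Ext c c' f F) : Reg c fun x => t (f x) :=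
  ⟨fun x => hF.holf.hol (h.hol _), fun y =>
    let ⟨a, b, h1, h2, h3⟩ := h.mer (F y)
    ⟨fun z => a (F z), fun z => b (F z), hF.hol.hol h1, hF.hol.hol h2,
      (hF.hol.cont.continuousAt.eventually h3).mono fun _ e x hx =>
        e (f x) (by rw [← hF.eq, hx])⟩⟩

/-- regular functions descend along modifications -/
theorem desc {p : c₁.Y.X → c.Y.X} (h : Reg c₁ t) (hp : Ext c₁ c (fun x => x) p) : Reg c t := by
  obtain ⟨g, hg⟩ : ∃ g : c.Y.X → ℂ, ∀ x, g (c.j x) = t x := ⟨_, c.inj.extend_apply t 0⟩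
  refine of_pole h.hol fun y => ?_
  obtain ⟨σ, s1, s2⟩ := c.eqn y
  have s0 : (‖σ y‖ + 1 : ℂ) ≠ 0 := by exact_mod_cast (by positivity : (‖σ y‖ + 1 : ℝ) ≠ 0)
  obtain ⟨τ, t1, t2, t3⟩ : ∃ τ, Hol n τ y ∧ ‖τ y‖ < 1 ∧ ∀ᶠ z in 𝓝 y, τ z = 0 ↔ z ∉ off c.G :=
    ⟨fun z => σ z / (‖σ y‖ + 1), s1.div (hol_const _ y) s0, by
      rw [norm_div, div_lt_one (norm_pos_iff.2 s0)]
      exact_mod_cast (lt_add_one ‖σ y‖).trans_le (le_abs_self _),
      s2.mono fun z hz => by rw [div_eq_zero_iff, or_iff_left s0, hz]⟩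
  let O : ℕ → Set c₁.Y.X := fun k =>
    interior {w | ‖τ (p w)‖ ≤ 1 ∧ ∀ x, c₁.j x = w → ‖t x * τ (p w) ^ k‖ ≤ k}
  have h1 : Monotone O := monotone_nat_of_le_succ fun k => interior_mono fun w hw =>
    ⟨hw.1, fun x hx => by
      rw [pow_succ, ← mul_assoc, norm_mul, Nat.cast_succ]
      exact (mul_le_of_le_one_right (norm_nonneg _) hw.1).trans ((hw.2 x hx).trans (by linarith))⟩
  have h2 : p ⁻¹' {y} ⊆ ⋃ k, O k := fun w (hw : p w = y) => by
    subst hw
    have hc := hp.hol.cont.continuousAt (x := w)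
    obtain ⟨k, u, u1, u2⟩ := h.pole (hp.hol.hol t1)
      ((hc.eventually t3).mono fun z hz e => hz.2 fun e' => e (hp.proper isProperMap_id e'))
    obtain ⟨l, hl⟩ := exists_nat_gt ‖u w‖
    refine mem_iUnion.2 ⟨max k l, mem_interior_iff_mem_nhds.2 ?_⟩
    filter_upwards [u2, u1.cont.norm.eventually_lt_const hl,
      hc.eventually (t1.cont.norm.eventually_lt_const t2)] with z k1 k2 k3
    refine ⟨k3.le, fun x hx => ?_⟩
    rw [← Nat.add_sub_cancel' (le_max_left k l), pow_add, ← mul_assoc, ← k1 x hx, norm_mul,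
      norm_pow, Nat.add_sub_cancel' (le_max_left k l)]
    exact (mul_le_of_le_one_right (norm_nonneg _) (pow_le_one₀ (norm_nonneg _) k3.le)).trans
      (k2.le.trans (Nat.cast_le.2 (le_max_right k l)))
  obtain ⟨k, hk⟩ := (isClosed_singleton.preimage hp.hol.cont).isCompact.elim_directed_cover O
    (fun _ => isOpen_interior) h2 h1.directed_le
  have h3 := hp.hol.cont.isClosedMap.eventually_nhds_fiber y
    fun w hw => mem_interior_iff_mem_nhds.1 (hk hw)
  obtain ⟨u, u1, u2⟩ := P277Z.Hl.Ds.riem (f := fun z => g z * τ z ^ k) (C := k) t1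
    (fun e => ((c.dense y) |> mem_closure_iff_frequently.1) (by
      filter_upwards [e, t3] with z k1 k2 ⟨x, hx⟩ using k2.1 k1 (hx ▸ c.mem x))) (by
      filter_upwards [h3, t3, t1.near] with z k1 k2 k3 k4
      obtain ⟨x, rfl⟩ := c.ex (not_not.1 (mt k2.2 k4))
      refine ⟨Hol.mul (c.hol_of (by simpa only [hg] using h.hol x)) (Hol.pow k3 k), ?_⟩
      simpa only [hg, hp.eq] using (k1 _ (hp.eq x)).2 x rfl)
  refine ⟨τ, u, k, t1, u1, ?_⟩
  filter_upwards [u2, t3] with z k1 k2 x hx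
  have k3 : τ z ≠ 0 := fun e => k2.1 e (hx ▸ c.mem x)
  exact ⟨k3, by rw [k1 k3, ← hx, hg]⟩

theorem comp {t : V → ℂ} (h : Reg c' t) (hf : Alg c c' f) : Reg c fun x => t (f x) :=
  let ⟨_, _, _, h1, h2⟩ := hf.ext
  (h.ext h2).desc h1

end Reg

/-! ### Zariski closed sets -/

namespace Zc

variable {Z Z' : Set U}

theorem of_loc (h : ∀ y, ∃ (ι : Type) (_ : Finite ι) (g : ι → c.Y.X → ℂ), (∀ i, Hol n (g i) y) ∧
    ∀ᶠ z in 𝓝 y, ∀ x, c.j x = z → (x ∈ Z ↔ ∀ i, g i z = 0)) : Zc c Z := by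
  refine ⟨{z | ∀ x, c.j x = z → x ∈ Z}, .of_fin fun y => ?_,
    ext fun x => ⟨fun e => e x rfl, fun e x' e' => c.inj e' ▸ e⟩⟩
  obtain ⟨ι, _, g, h1, h2⟩ := h y
  obtain ⟨τ, h3, h4⟩ := c.eqn y
  refine ⟨ι, inferInstance, fun i z => τ z * g i z, fun i => Hol.mul h3 (h1 i), ?_⟩
  filter_upwards [h2, h4] with z k1 k2
  by_cases hz : z ∈ off c.G
  · obtain ⟨x, rfl⟩ := c.ex hz
    simp only [mul_eq_zero, or_iff_right fun e => k2.1 e hz, ← k1 x rfl]
    exact ⟨fun e => e x rfl, fun e x' e' => c.inj e' ▸ e⟩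
  · exact iff_of_true (fun x hx => absurd (hx ▸ c.mem x) hz) fun i => by rw [k2.2 hz, zero_mul]

theorem empty (c : Cp n U) : Zc c ∅ := ⟨∅, an_empty, rfl⟩

theorem univ (c : Cp n U) : Zc c univ := ⟨_, an_univ, rfl⟩

theorem inter (h : Zc c Z) (h' : Zc c Z') : Zc c (Z ∩ Z') :=
  let ⟨_, a, b⟩ := h
  let ⟨_, a', b'⟩ := h'
  ⟨_, a.inter a', b ▸ b' ▸ rfl⟩

theorem union (h : Zc c Z) (h' : Zc c Z') : Zc c (Z ∪ Z') :=
  let ⟨_, a, b⟩ := h
  let ⟨_, a', b'⟩ := h'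
  ⟨_, a.union a', b ▸ b' ▸ rfl⟩

theorem iInter {ι : Type} [Finite ι] {Z : ι → Set U} (h : ∀ i, Zc c (Z i)) : Zc c (⋂ i, Z i) := by
  choose A h1 h2 using h
  exact ⟨_, .iInter h1, by simp only [preimage_iInter, h2]⟩

theorem iUnion {ι : Type} [Finite ι] {Z : ι → Set U} (h : ∀ i, Zc c (Z i)) : Zc c (⋃ i, Z i) := by
  choose A h1 h2 using h
  exact ⟨_, .iUnion h1, by simp only [preimage_iUnion, h2]⟩

theorem an (h : Zc c Z) : An n Z :=
  let ⟨_, a, b⟩ := h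
  b ▸ a.pre c.hol

theorem closed (h : Zc c Z) : IsClosed Z := h.an.closed

theorem clopen (c : Cp n U) (h : IsClopen Z) : Zc c Z := .of_loc fun y => by
  obtain ⟨O, h0, hy, -, h2⟩ := (snc_thin_off c.snc).loc_conn y univ_mem
  have h1 := h0.mem_nhds hy
  have h3 : IsPreconnected (c.j ⁻¹' O) := by
    rw [← c.opn.isInducing.isPreconnected_image, image_preimage_eq_inter_range, c.emb.rng]
    simpa only [sdiff_compl] using h2
  rcases disjoint_or_subset_of_isClopen h3 h with e | e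
  · exact ⟨Unit, inferInstance, fun _ _ => 1, fun _ => hol_const 1 y, mem_of_superset h1
      fun z hz x hx => iff_of_false (e.notMem_of_mem_left (show c.j x ∈ O from hx ▸ hz)) (by simp)⟩
  · exact ⟨Empty, inferInstance, Empty.elim, fun i => i.elim, mem_of_superset h1
      fun z hz x hx => iff_of_true (e (show c.j x ∈ O from hx ▸ hz)) fun i => i.elim⟩

theorem ext {Z : Set V} (h : Zc c' Z) (hF : Ext c c' f F) : Zc c (f ⁻¹' Z) :=
  let ⟨_, a, b⟩ := h
  ⟨_, a.pre hF.hol, b ▸ Set.ext fun x => by rw [mem_preimage, mem_preimage, hF.eq]; rfl⟩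

/-- the closure of the image -/
theorem clo_img (h : Zc c Z) (hF : Ext c c' f F) : Zc c' (closure (f '' Z)) := by
  obtain ⟨A, a, rfl⟩ := h
  refine ⟨_, rem _ _ c.Y _ F _ hF.hol (Rs.clo _ _ _ _ a c.bd), ?_⟩
  have h1 : A \ (off c.G)ᶜ = c.j '' (c.j ⁻¹' A) := by
    rw [image_preimage_eq_inter_range, c.emb.rng, sdiff_compl]
  rw [← hF.hol.cont.isClosedMap.closure_image_eq_of_continuous hF.hol.cont, h1,
    c'.opn.isInducing.closure_eq_preimage_closure_image, image_image, image_image]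
  simp only [hF.eq]

theorem pre {Z : Set V} (h : Zc c' Z) (hf : Alg c c' f) : Zc c (f ⁻¹' Z) := by
  obtain ⟨_, _, _, h1, h2⟩ := hf.ext
  simpa only [image_id', (h.closed.preimage hf.cont).closure_eq] using (h.ext h2).clo_img h1

theorem clo (h : Zc c Z) (hf : Alg c c' f) : Zc c' (closure (f '' Z)) :=
  let ⟨_, _, _, h1, h2⟩ := hf.ext
  (h.ext h1).clo_img h2

theorem img (h : Zc c Z) (hf : Alg c c' f) (hc : IsClosed (f '' Z)) : Zc c' (f '' Z) :=
  hc.closure_eq ▸ h.clo hf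

theorem clo_diff (h : Zc c Z) (h' : Zc c Z') : Zc c (closure (Z \ Z')) := by
  obtain ⟨A, a, rfl⟩ := h
  obtain ⟨B, b, rfl⟩ := h'
  exact ⟨_, Rs.clo _ _ _ _ a b,
    c.opn.isOpenMap.preimage_closure_eq_closure_preimage c.hol.cont _⟩

end Zc

theorem Reg.zc (h : Reg c t) : Zc c {x | t x = 0} := .of_loc fun y =>
  let ⟨a, _, h1, _, h3⟩ := h.mer y
  ⟨Unit, inferInstance, fun _ => a, fun _ => h1, h3.mono fun z e x hx => by
    rw [forall_const, mem_ofPred_eq, ← mul_eq_zero_iff_right (e x hx).1, (e x hx).2]⟩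

theorem Alg.zc_eq {g : U → V} (hf : Alg c c' f) (hg : Alg c c' g) : Zc c {x | f x = g x} := by
  obtain ⟨c₁, p, F, h1, h2⟩ := ext_fin (ι := Bool) (Z := fun _ => V) (e := fun _ => c')
    (f := fun b => cond b f g) fun b => by cases b <;> assumption
  refine Zc.pre (c' := c₁) (Z := {x | f x = g x})
    ⟨_, an_eq (h2 true).hol (h2 false).hol, Set.ext fun x => ?_⟩ h1.alg.symm
  rw [mem_preimage, mem_ofPred_eq, (h2 _).eq, (h2 _).eq, c'.inj.eq_iff]
  rfl

/-- common zeros of polynomials in regular functions -/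
theorem zc_poly {σ : Type} [Finite σ] {t : U → σ → ℂ} (h : ∀ i, Reg c fun x => t x i)
    (S : Set (MvPolynomial σ ℂ)) : Zc c {x | ∀ P ∈ S, MvPolynomial.eval (t x) P = 0} := by
  obtain ⟨T, hT⟩ := IsNoetherian.noetherian (Ideal.span S)
  have h1 : ∀ (x) (S : Set (MvPolynomial σ ℂ)), (∀ P ∈ S, MvPolynomial.eval (t x) P = 0) ↔
      Ideal.span S ≤ RingHom.ker (MvPolynomial.eval (t x)) := fun x S => by
    rw [Ideal.span_le]
    rfl
  have h2 : {x | ∀ P ∈ S, MvPolynomial.eval (t x) P = 0} =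
      ⋂ P : T, {x | MvPolynomial.eval (t x) P.1 = 0} := Set.ext fun x => by
    rw [mem_ofPred_eq, h1, ← hT, mem_iInter, Subtype.forall]
    exact (h1 x T).symm
  exact h2 ▸ .iInter fun P => (Reg.eval h P.1).zc

/-- descent along a map with dense image -/
theorem Alg.desc {π : U → V} {g : V → W} (hπ : Alg c c' π) (hs : Surjective π) (hg : HolM m k g)
    (h : Alg c c'' fun x => g (π x)) : Alg c' c'' g := by
  obtain ⟨c₁, p, F, h1, h2⟩ := hπ.ext
  obtain ⟨c₂, q, G, h3, h4⟩ := (h.comp h1.alg).ext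
  have h5 := h2.comp h3
  refine alg_of_an hg (rem _ _ c₂.Y _ _ _ (h5.hol.pair h4.hol) an_univ) fun v z => ⟨?_, ?_⟩
  · rintro ⟨y, -, e⟩
    have := c₂.neBot y
    exact tendsto_nhds_unique
      ((pair_inj.1 e).2 ▸ ((h4.hol.cont.tendsto y).comp tendsto_comap).congr h4.eq)
      (((c''.hol.comp hg).cont.tendsto v).comp (h5.tend (pair_inj.1 e).1))
  · rintro rfl
    obtain ⟨x, rfl⟩ := hs v
    exact ⟨c₂.j x, trivial, pair_inj.2 ⟨h5.eq x, h4.eq x⟩⟩

/-- **Subvarieties**: a manifold which is embedded onto a difference of Zariski closed sets -/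
theorem Cp.sub (c' : Cp m V) {i : U → V} {A B : Set V} (hA : Zc c' A) (hB : Zc c' B)
    (hi : Emb n m i (A \ B)) (he : IsInducing i) : ∃ (c : Cp n U) (F : c.Y.X → c'.Y.X),
      Ext c c' i F ∧ (c'.Y.Prj → c.Y.Prj) ∧ ∀ y x, F y = c'.j (i x) → y = c.j x := by
  obtain ⟨A, a, rfl⟩ := hA
  obtain ⟨B, b, rfl⟩ := hB
  have hm : ∀ x, c'.j (i x) ∈ A ∧ c'.j (i x) ∉ B := fun x => by
    have : i x ∈ range i := mem_range_self x
    rwa [hi.rng] at this
  obtain ⟨c, F, h1, h2, h3, h4⟩ := P275RG.sub c'.Y c'.kah a (b.union c'.bd)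
    (i := fun x => c'.j (i x)) ⟨c'.hol.comp hi.hol, c'.inj.comp hi.inj, fun x =>
      .comp (c'.hol.at _) (hi.hol.at x) (c'.emb.imm _) (hi.imm x), by
        ext y
        refine ⟨?_, fun hy => ?_⟩
        · rintro ⟨x, rfl⟩
          exact ⟨(hm x).1, fun e => e.elim (hm x).2 fun e => e (c'.mem _)⟩
        · obtain ⟨v, rfl⟩ := c'.ex (not_not.1 fun e => hy.2 (.inr e))
          obtain ⟨x, rfl⟩ : v ∈ range i := hi.rng ▸ ⟨hy.1, fun e => hy.2 (.inl e)⟩
          exact mem_range_self x⟩ (c'.opn.isInducing.comp he)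
  refine ⟨c, F, ⟨h1, h2⟩, h4, fun y x e => ?_⟩
  obtain ⟨x', rfl⟩ := c.ex ((h3 y).1 (e ▸ fun e => e.elim (hm x).2 fun e => e (c'.mem _)))
  rw [hi.inj (c'.inj ((h2 x').symm.trans e))]

end Vale.Agent.P275RG
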